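import Crest.Agent.R304C.Flow

/-!
# Row 304 C: the perceptron
-/

set_option autoImplicit false

namespace Crest.Agent.R304C

open Finset Crest.Matchings

variable {n D H γ L T : ℕ} {ℓ X X' : Mx} {x : ℕ → ℕ → ℝ}

theorem Perc_cases (h : pstep n D H γ ℓ X = some X') :
    (∃ u < n, D + H < cut n X [u] ∧ X' = mk n fun p q => ent X p q - ind [u] p q) ∨
    ((∀ u < n, cut n X [u] ≤ D + H) ∧
      ((∃ S, oddCut n (D - H) X = some S ∧ X' = mk n fun p q => ent X p q + ind S p q) ∨
        ((∑ p ∈ range n, ∑ q ∈ range n, gain D ℓ X p q * ent X p q) + H < 2 * γ * D ∧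
          X' = mk n fun p q => ent X p q + gain D ℓ X p q))) := by
  unfold pstep at h
  cases h1 : (List.range n).find? fun u => decide (D + H < cut n X [u]) with
  | some u =>
    rw [h1] at h
    left
    refine ⟨u, List.mem_range.1 (List.mem_of_find?_eq_some h1), ?_, (Option.some.inj h).symm⟩
    simpa using List.find?_some h1
  | none =>
    rw [h1] at h
    right
    refine ⟨fun u hu => ?_, ?_⟩
    · simpa using List.find?_eq_none.1 h1 u (List.mem_range.2 hu)
    · cases h2 : oddCut n (D - H) X with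
      | some S =>
        rw [h2] at h
        exact Or.inl ⟨S, rfl, (Option.some.inj h).symm⟩
      | none =>
        rw [h2] at h
        simp only [Option.elim] at h
        split_ifs at h with h3
        exact Or.inr ⟨h3, (Option.some.inj h).symm⟩

theorem Perc_ind_comm (S : List ℕ) (p q : ℕ) : ind S p q = ind S q p := by
  unfold ind
  exact if_congr Iff.comm rfl rfl

theorem Perc_ind_self (S : List ℕ) (p : ℕ) : ind S p p = 0 := by simp [ind]

theorem Perc_ind_le (S : List ℕ) (p q : ℕ) : ind S p q ≤ 1 := by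
  unfold ind
  split_ifs <;> simp

theorem Perc_good_mk {f : ℕ → ℕ → ℕ} (hs : Sym n f) (hd : ∀ u < n, f u u = 0) :
    Good n (mk n f) :=
  ⟨fun u hu v hv => by rw [ent_mk f hu hv, ent_mk f hv hu, hs u hu v hv],
    fun u hu => by rw [ent_mk f hu hu, hd u hu]⟩

theorem good_pstep (hℓ : Sym n (ent ℓ)) (hX : Good n X) (h : pstep n D H γ ℓ X = some X') :
    Good n X' := by
  rcases Perc_cases h with ⟨u, -, -, rfl⟩ | ⟨-, ⟨S, -, rfl⟩ | ⟨-, rfl⟩⟩
  · exact Perc_good_mk (fun p hp q hq => by rw [hX.sym p hp q hq, Perc_ind_comm])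
      fun p hp => by rw [hX.diag p hp, Nat.zero_sub]
  · exact Perc_good_mk (fun p hp q hq => by rw [hX.sym p hp q hq, Perc_ind_comm])
      fun p hp => by rw [hX.diag p hp, Perc_ind_self]
  · refine Perc_good_mk (fun p hp q hq => ?_) fun p hp => by simp [hX.diag p hp, gain]
    unfold gain
    rw [hX.sym p hp q hq, hℓ p hp q hq]
    exact congrArg _ (if_congr eq_comm rfl rfl)

theorem Perc_prun_succ (T : ℕ) : prun n D H γ ℓ (T + 1)
    = (pstep n D H γ ℓ (prun n D H γ ℓ T)).getD (prun n D H γ ℓ T) := by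
  unfold prun
  rw [Function.iterate_succ_apply']

theorem good_prun (hℓ : Sym n (ent ℓ)) (T : ℕ) : Good n (prun n D H γ ℓ T) := by
  induction T with
  | zero => exact Perc_good_mk (f := fun _ _ => 0) (fun _ _ _ _ => rfl) fun _ _ => rfl
  | succ T ih =>
    rw [Perc_prun_succ]
    cases h : pstep n D H γ ℓ (prun n D H γ ℓ T) with
    | none => exact ih
    | some X' => exact good_pstep hℓ ih h

theorem Perc_cut_single (hX : Good n X) {u : ℕ} (hu : u < n) :
    cut n X [u] = ∑ v ∈ range n, ent X u v := by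
  rw [cut_eq, toF_singleton hu, cutF_singleton hu (hX.diag u hu)]

/-- `cut_eq`, `toF_singleton`, `cutF_singleton`, `oddCut_none`. -/
theorem fine_of_none (hn : Even n) (hX : Good n X) (h : pstep n D H γ ℓ X = none) :
    Fine n D H γ ℓ X := by
  unfold pstep at h
  cases h1 : (List.range n).find? fun u => decide (D + H < cut n X [u]) with
  | some u => rw [h1] at h; simp at h
  | none =>
    rw [h1] at h
    cases h2 : oddCut n (D - H) X with
    | some S => rw [h2] at h; simp at h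
    | none =>
      rw [h2] at h
      simp only [Option.elim] at h
      split_ifs at h with h3
      refine ⟨fun u hu => ?_, fun A hA ho => ?_, not_lt.1 h3⟩
      · rw [← Perc_cut_single hX hu]
        simpa using List.find?_eq_none.1 h1 u (List.mem_range.2 hu)
      · have := oddCut_none hn h2 A hA ho
        omega

/-- the potential. -/
noncomputable def Phi (n D : ℕ) (x : ℕ → ℕ → ℝ) (X : Mx) : ℝ :=
  ∑ p ∈ range n, ∑ q ∈ range n, ((ent X p q : ℝ) - D * x p q) ^ 2

theorem sum_ind_mul {Y : ℕ → ℕ → ℝ} (hY : Sym n Y) (S : List ℕ) :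
    ∑ p ∈ range n, ∑ q ∈ range n, (ind S p q : ℝ) * Y p q = 2 * cutF n Y (toF n S) := by
  rw [two_mul]
  nth_rewrite 2 [← cutF_compl hY]
  unfold cutF
  rw [← sum_add_distrib]
  refine sum_congr rfl fun p hp => ?_
  rw [← sum_add_distrib]
  refine sum_congr rfl fun q hq => ?_
  have hp' := mem_range.1 hp
  have hq' := mem_range.1 hq
  by_cases h1 : p ∈ S <;> by_cases h2 : q ∈ S <;> simp [ind, mem_toF, h1, h2, hp', hq']

theorem Perc_cutF_cast (X : Mx) (A : Finset ℕ) :
    cutF n (fun p q => (ent X p q : ℝ)) A = ((cutF n (ent X) A : ℕ) : ℝ) := by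
  unfold cutF
  push_cast
  rfl

theorem Perc_sym_cast (hX : Good n X) : Sym n fun p q => (ent X p q : ℝ) :=
  fun u hu v hv => by simp only [hX.sym u hu v hv]

theorem Perc_sq_le {a : ℕ → ℕ → ℕ} {B : ℕ} (ha : ∀ p < n, ∀ q < n, a p q ≤ B) :
    ∑ p ∈ range n, ∑ q ∈ range n, (a p q : ℝ) ^ 2 ≤ ((n ^ 2 * B ^ 2 : ℕ) : ℝ) := by
  calc ∑ p ∈ range n, ∑ q ∈ range n, (a p q : ℝ) ^ 2
      ≤ ∑ _p ∈ range n, ∑ _q ∈ range n, (B : ℝ) ^ 2 :=
        sum_le_sum fun p hp => sum_le_sum fun q hq => pow_le_pow_left₀ (Nat.cast_nonneg _)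
          (by exact_mod_cast ha p (mem_range.1 hp) q (mem_range.1 hq)) 2
    _ = ((n ^ 2 * B ^ 2 : ℕ) : ℝ) := by simp; ring

theorem Perc_phi_add (X : Mx) (a : ℕ → ℕ → ℕ) :
    Phi n D x (mk n fun p q => ent X p q + a p q) = Phi n D x X
      + 2 * (∑ p ∈ range n, ∑ q ∈ range n, (a p q : ℝ) * ent X p q)
      - 2 * D * (∑ p ∈ range n, ∑ q ∈ range n, (a p q : ℝ) * x p q)
      + ∑ p ∈ range n, ∑ q ∈ range n, (a p q : ℝ) ^ 2 := by
  unfold Phi
  simp only [mul_sum, ← sum_add_distrib, ← sum_sub_distrib]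
  refine sum_congr rfl fun p hp => sum_congr rfl fun q hq => ?_
  rw [ent_mk _ (mem_range.1 hp) (mem_range.1 hq)]
  push_cast
  ring

theorem Perc_phi_sub (hx : InP n x) (X : Mx) (a : ℕ → ℕ → ℕ) :
    Phi n D x (mk n fun p q => ent X p q - a p q) ≤ Phi n D x X
      - 2 * (∑ p ∈ range n, ∑ q ∈ range n, (a p q : ℝ) * ent X p q)
      + 2 * D * (∑ p ∈ range n, ∑ q ∈ range n, (a p q : ℝ) * x p q)
      + ∑ p ∈ range n, ∑ q ∈ range n, (a p q : ℝ) ^ 2 := by
  unfold Phi
  simp only [mul_sum, ← sum_add_distrib, ← sum_sub_distrib]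
  refine sum_le_sum fun p hp => sum_le_sum fun q hq => ?_
  rw [ent_mk _ (mem_range.1 hp) (mem_range.1 hq)]
  have h0 : 0 ≤ (D : ℝ) * x p q :=
    mul_nonneg (Nat.cast_nonneg _) (hx.nonneg p (mem_range.1 hp) q (mem_range.1 hq))
  rcases le_total (a p q) (ent X p q) with h | h
  · rw [Nat.cast_sub h]
    exact le_of_eq (by ring)
  · rw [Nat.sub_eq_zero_of_le h]
    have h1 : (0 : ℝ) ≤ (a p q : ℝ) - ent X p q := sub_nonneg.2 (by exact_mod_cast h)
    have h2 := mul_nonneg h0 h1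
    have h3 := sq_nonneg ((a p q : ℝ) - ent X p q)
    push_cast
    linarith

/-- `Φ (X ± a) ≤ Φ X ± 2 ⟨a, X - D x⟩ + ‖a‖²` (truncated subtraction is a projection, `x ≥ 0`), `‖a‖² ≤ H`,
and `± ⟨a, X - D x⟩ ≤ -H` in the three cases (`sum_ind_mul`, `oddCut_some`, `hobj`). -/
theorem phi_step (hx : InP n x) (hL : ∀ u < n, ∀ v < n, ent ℓ u v ≤ L)
    (hH : n ^ 2 * (L + D.size + 1) ^ 2 ≤ H)
    (hobj : ∀ X, Good n X → (∀ u < n, ∑ v ∈ range n, ent X u v ≤ D + H) →
      (2 * γ : ℝ) ≤ ∑ p ∈ range n, ∑ q ∈ range n, (gain D ℓ X p q : ℝ) * x p q)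
    (hX : Good n X) (h : pstep n D H γ ℓ X = some X') : Phi n D x X' + H ≤ Phi n D x X := by
  have hB : ∀ a : ℕ → ℕ → ℕ, (∀ p < n, ∀ q < n, a p q ≤ L + D.size + 1) →
      ∑ p ∈ range n, ∑ q ∈ range n, (a p q : ℝ) ^ 2 ≤ H := fun a ha =>
    (Perc_sq_le ha).trans (by exact_mod_cast hH)
  have hI : ∀ S : List ℕ, ∑ p ∈ range n, ∑ q ∈ range n, (ind S p q : ℝ) ^ 2 ≤ H := fun S =>
    hB _ fun p _ q _ => (Perc_ind_le S p q).trans (by omega)
  have hD : (0 : ℝ) ≤ D := Nat.cast_nonneg _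
  have hH0 : (0 : ℝ) ≤ H := Nat.cast_nonneg _
  rcases Perc_cases h with ⟨u, hu, hc, rfl⟩ | ⟨hdeg, ⟨S, hS, rfl⟩ | ⟨hc, rfl⟩⟩
  · have h1 := Perc_phi_sub (D := D) hx X (ind [u])
    rw [sum_ind_mul (Perc_sym_cast hX), sum_ind_mul hx.sym, Perc_cutF_cast, ← cut_eq,
      toF_singleton hu, cutF_singleton hu (hx.diag u hu), hx.deg u hu] at h1
    have h2 : (D : ℝ) + H < cut n X [u] := by exact_mod_cast hc
    linarith [hI [u]]
  · obtain ⟨ho, hc⟩ := oddCut_some hS
    have h1 := Perc_phi_add (n := n) (D := D) (x := x) X (ind S)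
    rw [sum_ind_mul (Perc_sym_cast hX), sum_ind_mul hx.sym, Perc_cutF_cast] at h1
    have h2 : ((cutF n (ent X) (toF n S) : ℕ) : ℝ) + H < D := by
      have : cutF n (ent X) (toF n S) + H < D := by omega
      exact_mod_cast this
    have h3 := mul_le_mul_of_nonneg_left (hx.odd _ (toF_subset n S) ho) hD
    linarith [hI S]
  · have h1 := Perc_phi_add (n := n) (D := D) (x := x) X (gain D ℓ X)
    have h2 : (∑ p ∈ range n, ∑ q ∈ range n, (gain D ℓ X p q : ℝ) * ent X p q) + H
        < 2 * γ * D := by exact_mod_cast hc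
    have h3 := mul_le_mul_of_nonneg_left
      (hobj X hX fun u hu => Perc_cut_single hX hu ▸ hdeg u hu) hD
    have h4 := hB (gain D ℓ X) fun p hp q hq => by
      have := hL p hp q hq
      unfold gain
      split_ifs <;> omega
    linarith

theorem Perc_phi_nonneg (X : Mx) : 0 ≤ Phi n D x X :=
  sum_nonneg fun _ _ => sum_nonneg fun _ _ => sq_nonneg _

theorem Perc_phi_zero (hx : InP n x) : Phi n D x (mk n fun _ _ => 0) ≤ n * D ^ 2 := by
  unfold Phi
  calc ∑ p ∈ range n, ∑ q ∈ range n, ((ent (mk n fun _ _ => 0) p q : ℝ) - D * x p q) ^ 2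
      ≤ ∑ p ∈ range n, (D : ℝ) ^ 2 * ∑ q ∈ range n, x p q := by
        refine sum_le_sum fun p hp => ?_
        rw [mul_sum]
        refine sum_le_sum fun q hq => ?_
        have hp' := mem_range.1 hp
        have h0 := hx.nonneg p hp' q (mem_range.1 hq)
        have h1 : x p q ≤ 1 := by
          rw [← hx.deg p hp']
          exact single_le_sum (f := fun v => x p v)
            (fun v hv => hx.nonneg p hp' v (mem_range.1 hv)) hq
        rw [ent_mk _ hp' (mem_range.1 hq)]
        have h2 := mul_nonneg (sq_nonneg (D : ℝ)) (mul_nonneg h0 (sub_nonneg.2 h1))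
        push_cast
        linarith
    _ = ∑ _p ∈ range n, (D : ℝ) ^ 2 :=
        sum_congr rfl fun p hp => by rw [hx.deg p (mem_range.1 hp), mul_one]
    _ = n * D ^ 2 := by simp

/-- `Φ 0 ≤ n D²` (`x² ≤ x`); if the last state is not final then no state was final and
`0 ≤ Φ ≤ n D² - (T + 1)`. -/
theorem succ_of (hℓ : Sym n (ent ℓ)) (hx : InP n x) (hL : ∀ u < n, ∀ v < n, ent ℓ u v ≤ L)
    (hH : n ^ 2 * (L + D.size + 1) ^ 2 ≤ H) (hH0 : 0 < H)
    (hobj : ∀ X, Good n X → (∀ u < n, ∑ v ∈ range n, ent X u v ≤ D + H) →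
      (2 * γ : ℝ) ≤ ∑ p ∈ range n, ∑ q ∈ range n, (gain D ℓ X p q : ℝ) * x p q)
    (hT : n * D ^ 2 ≤ T) : succ n D H γ ℓ T = true := by
  have hH1 : (1 : ℝ) ≤ H := by exact_mod_cast hH0
  have key : ∀ t : ℕ, pstep n D H γ ℓ (prun n D H γ ℓ t) = none ∨
      Phi n D x (prun n D H γ ℓ t) + t ≤ n * D ^ 2 := by
    intro t
    induction t with
    | zero => exact Or.inr (by simpa [prun] using Perc_phi_zero (D := D) hx)
    | succ t ih =>
      rw [Perc_prun_succ]
      cases h : pstep n D H γ ℓ (prun n D H γ ℓ t) with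
      | none => exact Or.inl h
      | some X' =>
        right
        have h1 := phi_step hx hL hH hobj (good_prun hℓ t) h
        have h2 := ih.resolve_left (by rw [h]; simp)
        simp only [Option.getD_some]
        push_cast
        linarith
  unfold succ
  cases h : pstep n D H γ ℓ (prun n D H γ ℓ T) with
  | none => rfl
  | some X' =>
    exfalso
    have h1 := phi_step hx hL hH hobj (good_prun hℓ T) h
    have h2 := (key T).resolve_left (by rw [h]; simp)
    have h3 : (n : ℝ) * D ^ 2 ≤ T := by exact_mod_cast hT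
    linarith [Perc_phi_nonneg (n := n) (D := D) (x := x) X']

end Crest.Agent.R304C
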