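import Crest.Agent.R304C.Defs

/-!
# Row 304 C: repairing an approximate point of the polytope
-/

set_option autoImplicit false

namespace Crest.Agent.R304C

open Finset Crest.Matchings

theorem Repair_cut_one {n : ℕ} {A : Finset ℕ} (hA : A ⊆ range n) :
    cutF n (fun _ _ => (1 : ℝ)) A = A.card * (n - A.card) := by
  have h1 : ∑ u ∈ range n, (if u ∈ A then (1 : ℝ) else 0) = A.card := by
    rw [sum_ite_mem, inter_eq_right.2 hA]; simp
  have h2 : ∑ v ∈ range n, (1 - if v ∈ A then (1 : ℝ) else 0) = n - A.card := by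
    rw [sum_sub_distrib, h1]; simp
  rw [← h2, ← h1, sum_mul_sum]
  refine sum_congr rfl fun u _ => sum_congr rfl fun v _ => ?_
  by_cases hu : u ∈ A <;> by_cases hv : v ∈ A <;> simp [hu, hv]

theorem Repair_cut_lower {n : ℕ} {x y : ℕ → ℕ → ℝ} {c a : ℝ} {A : Finset ℕ} (hA : A ⊆ range n)
    (h : ∀ u < n, ∀ v < n, u ≠ v → c * x u v + a ≤ y u v) :
    c * cutF n x A + a * (A.card * (n - A.card)) ≤ cutF n y A := by
  rw [← Repair_cut_one hA]
  unfold cutF
  rw [mul_sum, mul_sum, ← sum_add_distrib]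
  refine sum_le_sum fun u hu => ?_
  rw [mul_sum, mul_sum, ← sum_add_distrib]
  refine sum_le_sum fun v hv => ?_
  split_ifs with h1
  · rw [mul_one]
    exact h u (mem_range.1 hu) v (mem_range.1 hv) fun e => h1.2 (e ▸ h1.1)
  · simp

theorem Repair_odd {n : ℕ} (hn : Even n) {y : ℕ → ℕ → ℝ} (hs : Sym n y) (hd : ∀ u < n, y u u = 0)
    (hdeg : ∀ u < n, ∑ v ∈ range n, y u v = 1)
    (h : ∀ A ⊆ range n, 3 ≤ A.card → A.card + 3 ≤ n → 1 ≤ cutF n y A) :
    ∀ A ⊆ range n, Odd A.card → 1 ≤ cutF n y A := by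
  have h1 : ∀ A ⊆ range n, A.card = 1 → 1 ≤ cutF n y A := by
    intro A hA hc
    obtain ⟨u, rfl⟩ := card_eq_one.1 hc
    have hu : u < n := mem_range.1 (hA (mem_singleton_self u))
    rw [cutF_singleton hu (hd u hu), hdeg u hu]
  intro A hA ⟨k, hk⟩
  obtain ⟨m, hm⟩ := hn
  have hle : A.card ≤ n := by simpa using card_le_card hA
  by_cases h2 : A.card = 1
  · exact h1 A hA h2
  by_cases h3 : A.card + 1 = n
  · rw [← cutF_compl hs]
    refine h1 _ sdiff_subset ?_
    rw [card_sdiff_of_subset hA, card_range]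
    omega
  exact h A hA (by omega) (by omega)

theorem Repair_sum_ne {n u : ℕ} (hu : u < n) (f : ℕ → ℝ) :
    ∑ v ∈ range n, (if u = v then 0 else f v) = ∑ v ∈ range n, f v - f u := by
  have : ∀ v, (if u = v then 0 else f v) = f v - if u = v then f v else 0 := fun v => by
    split_ifs <;> simp
  simp only [this]
  rw [sum_sub_distrib, sum_ite_eq, if_pos (mem_range.2 hu)]

/-- `n = 0` trivial; `n = 2`: `x' u v = if u = v then 0 else 1`.  `n ≥ 4`: `r u = 1 - (1 - θ) deg u ∈ [θ - η, θ + η]`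
(`deg u ≥ 1 - η` by `hodd {u}`, `cutF_singleton`), `R = ∑ r`, `α u = (r u - R / (2 n - 2)) / (n - 2) ≥
α₀ = θ (13 n - 30) / (32 (n - 1) (n - 2)) ≥ 0`, `x' u v = if u = v then 0 else (1 - θ) x u v + α u + α v`.
Degrees are `1`; for `A.card = 1` or `n - 1` use `cutF_singleton`, `cutF_compl`; otherwise
`3 ≤ A.card ≤ n - 3` (parity), the cut has `A.card (n - A.card) ≥ 3 (n - 3)` pairs and
`6 (n - 3) α₀ ≥ 17 θ / 16 ≥ θ + η` for `n ≥ 6`. -/
theorem repair {n : ℕ} (hn : Even n) {x : ℕ → ℕ → ℝ} {θ η : ℝ} (hθ : θ ≤ 1) (hη : 0 ≤ η)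
    (hηθ : 16 * η ≤ θ) (h0 : ∀ u < n, ∀ v < n, 0 ≤ x u v) (hs : Sym n x) (hd : ∀ u < n, x u u = 0)
    (hdeg : ∀ u < n, ∑ v ∈ range n, x u v ≤ 1 + η)
    (hodd : ∀ A ⊆ range n, Odd A.card → 1 - η ≤ cutF n x A) :
    ∃ x', InP n x' ∧ ∀ u < n, ∀ v < n, (1 - θ) * x u v ≤ x' u v := by
  have hθ0 : 0 ≤ θ := by linarith
  have hlow : ∀ u < n, 1 - η ≤ ∑ v ∈ range n, x u v := fun u hu => by
    rw [← cutF_singleton hu (hd u hu)]
    exact hodd _ (by simpa using hu) (by simp)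
  by_cases h4 : n < 4
  · -- `n = 0` or `n = 2`
    have hn' : n = 0 ∨ n = 2 := by obtain ⟨m, hm⟩ := hn; omega
    have hs' : Sym n fun u v => if u = v then (0 : ℝ) else 1 := fun u _ v _ => by
      simp only [eq_comm]
    have hdeg' : ∀ u < n, ∑ v ∈ range n, (if u = v then (0 : ℝ) else 1) = 1 := fun u hu => by
      rw [Repair_sum_ne hu fun _ => 1]
      obtain rfl : n = 2 := by omega
      norm_num
    refine ⟨fun u v => if u = v then 0 else 1, ⟨fun u _ v _ => by split_ifs <;> norm_num, hs',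
      fun u _ => if_pos rfl, hdeg', Repair_odd hn hs' (fun u _ => if_pos rfl) hdeg'
        fun A _ h1 h2 => by omega⟩, fun u hu v hv => ?_⟩
    dsimp only
    split_ifs with e
    · subst e
      rw [hd u hu, mul_zero]
    · have h1 : x u v ≤ ∑ v ∈ range n, x u v :=
        single_le_sum (fun w hw => h0 u hu w (mem_range.1 hw)) (mem_range.2 hv)
      have h2 := hdeg u hu
      have h3 : (1 - θ) * x u v ≤ (1 - θ) * (1 + η) :=
        mul_le_mul_of_nonneg_left (h1.trans h2) (by linarith)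
      nlinarith [mul_nonneg hθ0 hη]
  have hN : (4 : ℝ) ≤ n := by exact_mod_cast not_lt.1 h4
  obtain ⟨r, hr⟩ : ∃ r : ℕ → ℝ, ∀ u, r u = 1 - (1 - θ) * ∑ v ∈ range n, x u v := ⟨_, fun _ => rfl⟩
  have hr1 : ∀ u < n, θ - η ≤ r u := fun u hu => by
    have := mul_le_mul_of_nonneg_left (hdeg u hu) (show 0 ≤ 1 - θ by linarith)
    rw [hr]
    nlinarith [mul_nonneg hθ0 hη]
  have hr2 : ∀ u < n, r u ≤ θ + η := fun u hu => by
    have := mul_le_mul_of_nonneg_left (hlow u hu) (show 0 ≤ 1 - θ by linarith)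
    rw [hr]
    nlinarith [mul_nonneg hθ0 hη]
  obtain ⟨R, hR⟩ : ∃ R : ℝ, R = ∑ u ∈ range n, r u := ⟨_, rfl⟩
  have hR1 : R ≤ n * (θ + η) := by
    have := sum_le_card_nsmul (range n) r (θ + η) fun u hu => hr2 u (mem_range.1 hu)
    rwa [card_range, nsmul_eq_mul, ← hR] at this
  obtain ⟨α, hα⟩ : ∃ α : ℕ → ℝ, ∀ u, α u = (r u - R / (2 * n - 2)) / (n - 2) := ⟨_, fun _ => rfl⟩
  have p1 : (0 : ℝ) < n - 1 := by linarith
  have p2 : (0 : ℝ) < n - 2 := by linarith
  have p3 : (0 : ℝ) < 2 * n - 2 := by linarith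
  have hsum : ∑ v ∈ range n, α v = R / (2 * n - 2) := by
    simp only [hα]
    rw [← sum_div, sum_sub_distrib, ← hR, sum_const, card_range, nsmul_eq_mul]
    field_simp
    ring
  obtain ⟨a, ha⟩ : ∃ a : ℝ, a = θ * (13 * n - 30) / (32 * (n - 1) * (n - 2)) := ⟨_, rfl⟩
  have ha0 : 0 ≤ a := by
    rw [ha]
    exact div_nonneg (mul_nonneg hθ0 (by linarith)) (by positivity)
  have hαa : ∀ u < n, a ≤ α u := fun u hu => by
    have h1 : R / (2 * n - 2) ≤ n * (17 / 16 * θ) / (2 * n - 2) := by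
      refine div_le_div_of_nonneg_right (hR1.trans ?_) p3.le
      exact mul_le_mul_of_nonneg_left (by linarith) (by linarith)
    have h2 : a = (15 / 16 * θ - n * (17 / 16 * θ) / (2 * n - 2)) / (n - 2) := by
      rw [ha]
      have : (2 * n - 2 : ℝ) = 2 * (n - 1) := by ring
      rw [this]
      field_simp
      ring
    rw [h2, hα]
    have := hr1 u hu
    exact div_le_div_of_nonneg_right (by linarith) p2.le
  obtain ⟨y, hy⟩ : ∃ y : ℕ → ℕ → ℝ, ∀ u v,
      y u v = if u = v then 0 else (1 - θ) * x u v + α u + α v := ⟨_, fun _ _ => rfl⟩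
  have hy1 : ∀ u < n, ∀ v < n, u ≠ v → (1 - θ) * x u v + 2 * a ≤ y u v := fun u hu v hv e => by
    rw [hy, if_neg e]
    linarith [hαa u hu, hαa v hv]
  have hy2 : ∀ u < n, y u u = 0 := fun u _ => by rw [hy, if_pos rfl]
  have hy3 : ∀ u < n, ∀ v < n, (1 - θ) * x u v ≤ y u v := fun u hu v hv => by
    by_cases e : u = v
    · subst e
      rw [hd u hu, hy2 u hu, mul_zero]
    · linarith [hy1 u hu v hv e]
  have hs' : Sym n y := fun u hu v hv => by
    rw [hy, hy, hs u hu v hv]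
    by_cases e : u = v
    · rw [if_pos e, if_pos e.symm]
    · rw [if_neg e, if_neg (Ne.symm e)]
      ring
  have hdeg' : ∀ u < n, ∑ v ∈ range n, y u v = 1 := fun u hu => by
    simp only [hy]
    rw [Repair_sum_ne hu fun v => (1 - θ) * x u v + α u + α v, sum_add_distrib, sum_add_distrib,
      ← mul_sum, hsum, sum_const, card_range, nsmul_eq_mul, hd u hu]
    have h1 : (n - 2) * α u = r u - R / (2 * n - 2) := by
      rw [hα]
      field_simp
    have h2 := hr u
    linarith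
  refine ⟨y, ⟨fun u hu v hv => (mul_nonneg (by linarith) (h0 u hu v hv)).trans (hy3 u hu v hv), hs',
    hy2, hdeg', fun A hA hodd' => ?_⟩, hy3⟩
  by_cases hc : 3 ≤ A.card ∧ A.card + 3 ≤ n
  · have c1 : (3 : ℝ) ≤ A.card := by exact_mod_cast hc.1
    have c2 : (A.card : ℝ) + 3 ≤ n := by exact_mod_cast hc.2
    have h1 := Repair_cut_lower hA hy1
    have h2 := mul_le_mul_of_nonneg_left (hodd A hA hodd') (show 0 ≤ 1 - θ by linarith)
    have h3 : 3 * ((n : ℝ) - 3) ≤ A.card * (n - A.card) := by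
      nlinarith [mul_nonneg (sub_nonneg.2 c1) (sub_nonneg.2 c2)]
    have h5 : 2 * a * (3 * ((n : ℝ) - 3)) ≤ 2 * a * (A.card * (n - A.card)) :=
      mul_le_mul_of_nonneg_left h3 (by linarith)
    have h6 : 17 / 16 * θ ≤ 2 * a * (3 * ((n : ℝ) - 3)) := by
      have hN6 : (6 : ℝ) ≤ n := by linarith
      have e : 2 * a * (3 * ((n : ℝ) - 3)) =
          θ * (6 * (n - 3) * (13 * n - 30)) / (32 * (n - 1) * (n - 2)) := by
        rw [ha]; ring
      rw [e, le_div_iff₀ (by positivity)]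
      have : 17 / 16 * (32 * ((n : ℝ) - 1) * (n - 2)) ≤ 6 * (n - 3) * (13 * n - 30) := by
        nlinarith [mul_nonneg (sub_nonneg.2 hN6) (sub_nonneg.2 hN6)]
      nlinarith [mul_le_mul_of_nonneg_left this hθ0]
    nlinarith [mul_nonneg hθ0 hη]
  · have h1 : ∀ A ⊆ range n, A.card = 1 → 1 ≤ cutF n y A := by
      intro A hA hc
      obtain ⟨u, rfl⟩ := card_eq_one.1 hc
      have hu : u < n := mem_range.1 (hA (mem_singleton_self u))
      rw [cutF_singleton hu (hy2 u hu), hdeg' u hu]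
    obtain ⟨k, hk⟩ := hodd'
    obtain ⟨m, hm⟩ := hn
    have hle : A.card ≤ n := by simpa using card_le_card hA
    by_cases h2 : A.card = 1
    · exact h1 A hA h2
    rw [← cutF_compl hs']
    refine h1 _ sdiff_subset ?_
    rw [card_sdiff_of_subset hA, card_range]
    omega

end Crest.Agent.R304C
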