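import Crest.Agent.R304C.LB
import Crest.Agent.R304C.Repair

/-!
# Row 304 C: a successful target is not too large
-/

set_option autoImplicit false

namespace Crest.Agent.R304C

open Finset Crest.Matchings

/-- `negMulLog (a + b) ≥ negMulLog a - b` for `a + b ≤ 1`, and `negMulLog ((1 - θ) t) ≥ (1 - θ) negMulLog t`. -/
theorem negMulLog_ge {t t' θ : ℝ} (ht : 0 ≤ t) (hθ0 : 0 ≤ θ) (hθ : θ ≤ 1) (h : (1 - θ) * t ≤ t')
    (h1 : t' ≤ 1) : (1 - θ) * Real.negMulLog t - t' ≤ Real.negMulLog t' := by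
  have hθ' : 0 ≤ 1 - θ := by linarith
  have hs0 : 0 ≤ (1 - θ) * t := mul_nonneg hθ' ht
  have hA : (1 - θ) * Real.negMulLog t ≤ Real.negMulLog ((1 - θ) * t) := by
    rw [Real.negMulLog_mul]
    have : 0 ≤ t * Real.negMulLog (1 - θ) :=
      mul_nonneg ht (Real.negMulLog_nonneg hθ' (by linarith))
    linarith
  obtain ⟨s, hs⟩ : ∃ s, s = (1 - θ) * t := ⟨_, rfl⟩
  rw [← hs] at hA hs0 h
  have ht' : 0 ≤ t' := hs0.trans h
  have hB : Real.negMulLog s - t' ≤ Real.negMulLog t' := by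
    rcases hs0.eq_or_lt with h0 | h0
    · rw [← h0, Real.negMulLog_zero]
      have := Real.negMulLog_nonneg ht' h1
      linarith
    · have ht'' : 0 < t' := h0.trans_le h
      have hl : Real.log t' ≤ 0 := Real.log_nonpos ht' h1
      have h2 : Real.log (t' / s) ≤ t' / s - 1 := Real.log_le_sub_one_of_pos (div_pos ht'' h0)
      rw [Real.log_div ht''.ne' h0.ne'] at h2
      have h3 : s * (Real.log t' - Real.log s) ≤ s * (t' / s - 1) :=
        mul_le_mul_of_nonneg_left h2 h0.le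
      have h4 : s * (t' / s - 1) = t' - s := by field_simp
      have h5 : (t' - s) * Real.log t' ≤ 0 := mul_nonpos_of_nonneg_of_nonpos (by linarith) hl
      unfold Real.negMulLog
      nlinarith
  linarith

/-- `X < 2 ^ X.size`, `2 ^ (D.size - 1) ≤ D`, `X.size ≤ D.size + 1`. -/
theorem gain_le {D X l : ℕ} (hD : 0 < D) (hX : X ≤ 2 * D) :
    (X / D : ℝ) * (((l + (D.size + 1) - X.size : ℕ) - 2) * Real.log 2) ≤
      Real.negMulLog (X / D) + X / D * (l * Real.log 2) := by
  rcases Nat.eq_zero_or_pos X with h0 | h0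
  · subst h0
    simp
  have hDr : (0 : ℝ) < D := by exact_mod_cast hD
  have hXr : (0 : ℝ) < X := by exact_mod_cast h0
  have h1 : X.size ≤ D.size + 1 := by
    rw [Nat.size_le, pow_succ]
    have := Nat.lt_size_self D
    omega
  have h2 : Real.log X ≤ X.size * Real.log 2 := by
    rw [← Real.log_pow]
    apply Real.log_le_log hXr
    exact_mod_cast (Nat.lt_size_self X).le
  have hs : 0 < D.size := Nat.size_pos.2 hD
  have h3 : ((D.size : ℝ) - 1) * Real.log 2 ≤ Real.log D := by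
    have h4 : 2 ^ (D.size - 1) ≤ D := Nat.lt_size.1 (by omega)
    have h5 : ((D.size - 1 : ℕ) : ℝ) = (D.size : ℝ) - 1 := by
      rw [Nat.cast_sub hs]; simp
    rw [← h5, ← Real.log_pow]
    apply Real.log_le_log (by positivity)
    exact_mod_cast h4
  have h6 : ((l + (D.size + 1) - X.size : ℕ) : ℝ) = l + (D.size + 1) - X.size := by
    rw [Nat.cast_sub (by omega)]
    push_cast
    ring
  rw [h6]
  unfold Real.negMulLog
  rw [Real.log_div hXr.ne' hDr.ne']
  have h7 : ((l : ℝ) + (D.size + 1) - X.size - 2) * Real.log 2 ≤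
      -(Real.log X - Real.log D) + l * Real.log 2 := by linarith
  have h8 := mul_le_mul_of_nonneg_left h7 (div_pos hXr hDr).le
  linarith

/-- `x = X / D`, `η = H / D`, `θ = 1 / Γ`; `x'` from `repair`; with `Obj x = ∑∑ (negMulLog x + x ℓ log 2)`:
`Obj x ≥ log 2 (2 γ - η - 2 n (1 + η))` (`gain_le`), `Obj x' ≥ (1 - θ) Obj x - n` (`negMulLog_ge`, `∑∑ x' = n`),
`Obj x' ≤ 2 log Z + 2 n` (`gibbs_lb`); `θ γ ≤ 1`, `η ≤ 1 / 16`, `n ≥ 2`, `log 2 > 0.69`. -/
theorem fine_bound {n D H γ Γ : ℕ} {ℓ X : Mx} (hn : Even n) (h0 : 0 < n) (hℓ : Sym n (ent ℓ))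
    (hX : Good n X) (hF : Fine n D H γ ℓ X) (hH : 0 < H) (hD : 16 * Γ * H ≤ D) (hγ : γ ≤ Γ)
    (hΓ : 0 < Γ) : 2 ^ γ ≤ Zf n (ent ℓ) * 2 ^ (5 * n) := by
  have hD0 : 0 < D := lt_of_lt_of_le (by positivity) hD
  have hDr : (0 : ℝ) < D := by exact_mod_cast hD0
  have hΓr : (1 : ℝ) ≤ Γ := by exact_mod_cast hΓ
  have hΓ0 : (0 : ℝ) < Γ := by linarith
  have hHD : H ≤ D := le_trans (by nlinarith) hD
  have hn2 : 2 ≤ n := by obtain ⟨k, rfl⟩ := hn; omega
  have hn2r : (2 : ℝ) ≤ n := by exact_mod_cast hn2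
  obtain ⟨θ, hθ⟩ : ∃ θ : ℝ, θ = 1 / Γ := ⟨_, rfl⟩
  obtain ⟨η, hη⟩ : ∃ η : ℝ, η = H / D := ⟨_, rfl⟩
  have hθ0 : 0 ≤ θ := by rw [hθ]; positivity
  have hθ1 : θ ≤ 1 := by rw [hθ, div_le_one hΓ0]; exact hΓr
  have hη0 : 0 ≤ η := by rw [hη]; positivity
  have hηθ : 16 * η ≤ θ := by
    rw [hθ, hη, ← mul_div_assoc, div_le_div_iff₀ hDr hΓ0]
    have : ((16 * Γ * H : ℕ) : ℝ) ≤ D := by exact_mod_cast hD
    push_cast at this
    linarith
  have hθγ : θ * γ ≤ 1 := by
    rw [hθ, div_mul_eq_mul_div, one_mul, div_le_one hΓ0]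
    exact_mod_cast hγ
  have hdeg : ∀ u < n, ∑ v ∈ range n, (ent X u v : ℝ) / D ≤ 1 + η := by
    intro u hu
    rw [← sum_div, div_le_iff₀ hDr, hη]
    have : ((∑ v ∈ range n, ent X u v : ℕ) : ℝ) ≤ ((D + H : ℕ) : ℝ) := by exact_mod_cast hF.deg u hu
    push_cast at this
    have h2 : (1 + (H : ℝ) / D) * D = D + H := by field_simp
    linarith
  obtain ⟨x', hP, hx'⟩ := repair hn (x := fun u v => (ent X u v : ℝ) / D) hθ1 hη0 hηθ
    (fun u _ v _ => by positivity)
    (fun u hu v hv => by beta_reduce; rw [hX.sym u hu v hv])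
    (fun u hu => by simp [hX.diag u hu]) hdeg
    (fun A hA hodd => by
      have h1 : ((D : ℕ) : ℝ) ≤ ((cutF n (ent X) A + H : ℕ) : ℝ) := by exact_mod_cast hF.odd A hA hodd
      have h2 : cutF n (fun u v => (ent X u v : ℝ) / D) A = ((cutF n (ent X) A : ℕ) : ℝ) / D := by
        unfold cutF
        push_cast
        rw [sum_div]
        refine sum_congr rfl fun u _ => ?_
        rw [sum_div]
        refine sum_congr rfl fun v _ => ?_
        split_ifs <;> simp
      rw [h2, le_div_iff₀ hDr, hη]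
      have h3 : (1 - (H : ℝ) / D) * D = D - H := by field_simp
      rw [Nat.cast_add] at h1
      linarith)
  obtain ⟨hZ, hlb⟩ := gibbs_lb hn h0 hℓ hP
  have hl2 : (0.69 : ℝ) < Real.log 2 := by
    have := Real.log_two_gt_d9
    linarith
  have hl0 : 0 < Real.log 2 := by linarith
  -- lower bound for the objective at `x`
  have hobj : (2 * γ - η - 2 * (n * (1 + η))) * Real.log 2 ≤
      ∑ u ∈ range n, ∑ v ∈ range n, (Real.negMulLog ((ent X u v : ℝ) / D) +
        (ent X u v : ℝ) / D * (ent ℓ u v * Real.log 2)) := by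
    have h1 : ∀ u ∈ range n, ∀ v ∈ range n,
        (((gain D ℓ X u v * ent X u v : ℕ) : ℝ) / D - 2 * ((ent X u v : ℝ) / D)) * Real.log 2 ≤
        Real.negMulLog ((ent X u v : ℝ) / D) + (ent X u v : ℝ) / D * (ent ℓ u v * Real.log 2) := by
      intro u hu v hv
      by_cases huv : u = v
      · subst huv
        simp [hX.diag u (mem_range.1 hu)]
      · have h2 : ent X u v ≤ 2 * D := by
          have h3 : ent X u v ≤ ∑ v ∈ range n, ent X u v :=
            single_le_sum (f := fun v => ent X u v) (fun _ _ => Nat.zero_le _) hv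
          have := hF.deg u (mem_range.1 hu)
          omega
        have h4 := gain_le (l := ent ℓ u v) hD0 h2
        refine le_trans (le_of_eq ?_) h4
        unfold gain
        rw [if_neg huv, Nat.cast_mul]
        ring
    refine le_trans ?_ (sum_le_sum fun u hu => sum_le_sum fun v hv => h1 u hu v hv)
    simp only [← sum_mul, sum_sub_distrib, ← mul_sum]
    apply mul_le_mul_of_nonneg_right _ hl0.le
    have h5 : ∑ u ∈ range n, ∑ v ∈ range n, (ent X u v : ℝ) / D ≤ n * (1 + η) := by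
      have := sum_le_sum fun u hu => hdeg u (mem_range.1 hu)
      rw [sum_const, card_range, nsmul_eq_mul] at this
      exact this
    have h6 : (2 * γ - η : ℝ) ≤
        ∑ u ∈ range n, ∑ v ∈ range n, ((gain D ℓ X u v * ent X u v : ℕ) : ℝ) / D := by
      simp only [← sum_div]
      rw [le_div_iff₀ hDr, hη]
      have h7 : ((2 * γ * D : ℕ) : ℝ) ≤
          (((∑ p ∈ range n, ∑ q ∈ range n, gain D ℓ X p q * ent X p q) + H : ℕ) : ℝ) := by
        exact_mod_cast hF.obj
      have h8 : (2 * γ - (H : ℝ) / D) * D = 2 * γ * D - H := by field_simp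
      rw [Nat.cast_add, Nat.cast_sum] at h7
      simp only [Nat.cast_sum] at h7
      push_cast at h7 ⊢
      linarith
    linarith
  have hrep : (1 - θ) * (∑ u ∈ range n, ∑ v ∈ range n, (Real.negMulLog ((ent X u v : ℝ) / D) +
        (ent X u v : ℝ) / D * (ent ℓ u v * Real.log 2))) - n ≤
      ∑ u ∈ range n, ∑ v ∈ range n, (Real.negMulLog (x' u v) + x' u v * (ent ℓ u v * Real.log 2)) := by
    have h1 : (n : ℝ) = ∑ u ∈ range n, ∑ v ∈ range n, x' u v := by
      rw [sum_congr rfl fun u hu => hP.deg u (mem_range.1 hu)]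
      simp
    conv_lhs => rw [h1]
    rw [mul_sum, ← sum_sub_distrib]
    refine sum_le_sum fun u hu => ?_
    rw [mul_sum, ← sum_sub_distrib]
    refine sum_le_sum fun v hv => ?_
    have hu' := mem_range.1 hu
    have hv' := mem_range.1 hv
    have h2 : x' u v ≤ 1 := by
      rw [← hP.deg u hu']
      exact single_le_sum (f := fun v => x' u v) (fun w hw => hP.nonneg u hu' w (mem_range.1 hw)) hv
    have h3 := negMulLog_ge (t := (ent X u v : ℝ) / D) (by positivity) hθ0 hθ1 (hx' u hu' v hv') h2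
    have h4 := mul_le_mul_of_nonneg_right (hx' u hu' v hv')
      (show (0 : ℝ) ≤ ent ℓ u v * Real.log 2 by positivity)
    beta_reduce at h4
    linarith
  have h9 := mul_le_mul_of_nonneg_left hobj (show 0 ≤ 1 - θ by linarith)
  have h10 : (2 * γ - 2 - 1 / 16 - 17 / 8 * n : ℝ) ≤ (1 - θ) * (2 * γ - η - 2 * (n * (1 + η))) := by
    have h11 : 0 ≤ θ * (η + 2 * (n * (1 + η))) := by positivity
    have h12 : η ≤ 1 / 16 := by linarith
    have h13 : (n : ℝ) * η ≤ n * (1 / 16) := mul_le_mul_of_nonneg_left h12 (by positivity)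
    nlinarith
  have h14 := mul_le_mul_of_nonneg_right h10 hl0.le
  have h15 : (γ : ℝ) * Real.log 2 ≤ Real.log (Zf n (ent ℓ)) + (5 * n : ℕ) * Real.log 2 := by
    have h16 : (0.69 : ℝ) * (63 / 8 * n - 33 / 16) ≤ Real.log 2 * (63 / 8 * n - 33 / 16) :=
      mul_le_mul_of_nonneg_right hl2.le (by linarith)
    push_cast
    nlinarith
  have hZr : (0 : ℝ) < Zf n (ent ℓ) := by exact_mod_cast hZ
  rw [← Real.log_pow, ← Real.log_pow, ← Real.log_mul hZr.ne' (by positivity),
    Real.log_le_log_iff (by positivity) (by positivity)] at h15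
  exact_mod_cast h15

end Crest.Agent.R304C
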