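import Crest.Agent.R304C.UB
import Crest.Agent.R304C.Succ
import Crest.Agent.R304C.Perc

/-!
# Row 304 C: parameters
-/

set_option autoImplicit false

namespace Crest.Agent.R304C

open Finset Crest.Matchings

/-- `2 ^ (X.size - 1) ≤ max X 1`, `D < 2 ^ D.size`. -/
theorem le_gain {D X l : ℕ} (hD : 0 < D) :
    l * Real.log 2 - Real.log ((max X 1 : ℕ) / D : ℝ) ≤ (l + (D.size + 1) - X.size : ℕ) * Real.log 2 := by
  have hl2 : 0 < Real.log 2 := Real.log_pos (by norm_num)
  have hD' : (0 : ℝ) < D := by exact_mod_cast hD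
  have hm : (0 : ℝ) < (max X 1 : ℕ) := by
    have : 0 < max X 1 := lt_max_of_lt_right one_pos
    exact_mod_cast this
  have h1 : Real.log D ≤ D.size * Real.log 2 := by
    rw [← Real.log_pow]
    refine Real.log_le_log hD' ?_
    exact_mod_cast (Nat.lt_size_self D).le
  have h2 : ((X.size : ℝ) - 1) * Real.log 2 ≤ Real.log (max X 1 : ℕ) := by
    rcases Nat.eq_zero_or_pos X.size with h | h
    · rw [h]
      have : 0 ≤ Real.log (max X 1 : ℕ) := Real.log_natCast_nonneg _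
      push_cast at this ⊢
      linarith
    · have h3 : 2 ^ (X.size - 1) ≤ X := Nat.lt_size.1 (by omega)
      have h4 : ((X.size : ℝ) - 1) = ((X.size - 1 : ℕ) : ℝ) := by
        rw [Nat.cast_sub h]; simp
      rw [h4, ← Real.log_pow]
      refine Real.log_le_log (by positivity) ?_
      exact_mod_cast h3.trans (le_max_left _ _)
  have h5 : (l : ℝ) + (D.size + 1) - X.size ≤ (l + (D.size + 1) - X.size : ℕ) := by
    rcases le_total X.size (l + (D.size + 1)) with h | h
    · rw [Nat.cast_sub h]; push_cast; exact le_rfl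
    · have h' : (l : ℝ) + (D.size + 1) ≤ X.size := by exact_mod_cast h
      have : (0 : ℝ) ≤ (l + (D.size + 1) - X.size : ℕ) := Nat.cast_nonneg _
      linarith
  rw [Real.log_div hm.ne' hD'.ne']
  have h6 := mul_le_mul_of_nonneg_right h5 hl2.le
  nlinarith

/-- `gibbs_ub` with `y = max X 1 / D`, `∑∑ y ≤ (n (D + H) + n²) / D ≤ n + 1`, `le_gain`, `4 n log 2 ≥ n + 1`. -/
theorem gain_obj {n D H γ : ℕ} {ℓ : Mx} (h0 : 0 < n) (hℓ : Sym n (ent ℓ))
    (hZ : 2 ^ (γ + 2 * n) ≤ Zf n (ent ℓ)) (hD : n * H + n ^ 2 ≤ D) :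
    ∃ x, InP n x ∧ ∀ X, Good n X → (∀ u < n, ∑ v ∈ range n, ent X u v ≤ D + H) →
      (2 * γ : ℝ) ≤ ∑ p ∈ range n, ∑ q ∈ range n, (gain D ℓ X p q : ℝ) * x p q := by
  have hZ0 : 0 < Zf n (ent ℓ) := lt_of_lt_of_le (by positivity) hZ
  obtain ⟨x, hx, hub⟩ := gibbs_ub hℓ hZ0
  refine ⟨x, hx, fun X hX hdeg => ?_⟩
  have hl2 : 0.69 < Real.log 2 := by have := Real.log_two_gt_d9; linarith
  have hD0 : 0 < D := lt_of_lt_of_le (by positivity) hD
  have hD' : (0 : ℝ) < D := by exact_mod_cast hD0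
  have hn1 : (1 : ℝ) ≤ n := by exact_mod_cast h0
  have h1 := hub (fun u v => ((max (ent X u v) 1 : ℕ) : ℝ) / D)
    (fun u hu v hv => by simp only [hX.sym u hu v hv]) (fun u _ v _ => by
      have : 0 < max (ent X u v) 1 := lt_max_of_lt_right one_pos
      have h' : (0 : ℝ) < (max (ent X u v) 1 : ℕ) := by exact_mod_cast this
      positivity)
  have h2 : ∑ u ∈ range n, ∑ v ∈ range n, ((max (ent X u v) 1 : ℕ) : ℝ) / D ≤ n + 1 := by
    have h3 : ∑ u ∈ range n, ∑ v ∈ range n, max (ent X u v) 1 ≤ (n + 1) * D := by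
      calc ∑ u ∈ range n, ∑ v ∈ range n, max (ent X u v) 1
          ≤ ∑ _u ∈ range n, (D + H + n) := by
            refine sum_le_sum fun u hu => ?_
            calc ∑ v ∈ range n, max (ent X u v) 1 ≤ ∑ v ∈ range n, (ent X u v + 1) :=
                  sum_le_sum fun v _ => by omega
              _ = ∑ v ∈ range n, ent X u v + n := by rw [sum_add_distrib]; simp
              _ ≤ D + H + n := by have := hdeg u (mem_range.1 hu); omega
        _ = n * D + (n * H + n ^ 2) := by rw [sum_const, card_range, smul_eq_mul]; ring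
        _ ≤ (n + 1) * D := by rw [add_mul, one_mul]; omega
    simp only [← sum_div]
    rw [div_le_iff₀ hD']
    exact_mod_cast h3
  have h4 : ∑ u ∈ range n, ∑ v ∈ range n,
      x u v * (ent ℓ u v * Real.log 2 - Real.log (((max (ent X u v) 1 : ℕ) : ℝ) / D)) ≤
      (∑ p ∈ range n, ∑ q ∈ range n, (gain D ℓ X p q : ℝ) * x p q) * Real.log 2 := by
    rw [sum_mul]
    refine sum_le_sum fun u hu => ?_
    rw [sum_mul]
    refine sum_le_sum fun v hv => ?_
    by_cases huv : u = v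
    · subst huv
      rw [hx.diag u (mem_range.1 hu)]
      simp
    · have h5 := mul_le_mul_of_nonneg_left (le_gain (X := ent X u v) (l := ent ℓ u v) hD0)
        (hx.nonneg u (mem_range.1 hu) v (mem_range.1 hv))
      simp only [gain, if_neg huv]
      linarith
  have h6 : ((γ : ℝ) + 2 * n) * Real.log 2 ≤ Real.log (Zf n (ent ℓ)) := by
    have : ((γ : ℝ) + 2 * n) = ((γ + 2 * n : ℕ) : ℝ) := by push_cast; ring
    rw [this, ← Real.log_pow]
    refine Real.log_le_log (by positivity) ?_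
    exact_mod_cast hZ
  refine le_of_mul_le_mul_right ?_ (show 0 < Real.log 2 by linarith)
  nlinarith

theorem Core_exists_ge (p : ℕ → Bool) (N : ℕ) (h : 0 < ((List.range N).filter p).length) :
    ∃ γ < N, p γ = true ∧ ((List.range N).filter p).length ≤ γ + 1 := by
  by_contra hc
  push Not at hc
  have h1 : (List.range N).filter p ⊆ List.range (((List.range N).filter p).length - 1) := by
    intro γ hγ
    rw [List.mem_filter, List.mem_range] at hγ
    have := hc γ hγ.1 hγ.2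
    rw [List.mem_range]
    omega
  have h2 := (List.subperm_of_subset (List.nodup_range.filter p) h1).length_le
  rw [List.length_range] at h2
  omega

theorem Core_le_length (p : ℕ → Bool) {N c : ℕ} (hc : c ≤ N) (h : ∀ γ < c, p γ = true) :
    c ≤ ((List.range N).filter p).length := by
  have h1 : List.range c ⊆ (List.range N).filter p := by
    intro γ hγ
    rw [List.mem_range] at hγ
    rw [List.mem_filter, List.mem_range]
    exact ⟨by omega, h γ hγ⟩
  have h2 := (List.subperm_of_subset List.nodup_range h1).length_le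
  rwa [List.length_range] at h2

/-- `K = n + L + 16`; `(K ^ 10).size ≤ 10 K`; every successful `γ < K ^ 3` has `2 ^ γ ≤ Z 2 ^ (5 n)`
(`good_prun`, `fine_of_none`, `fine_bound`), and a list of `c` distinct numbers contains one `≥ c - 1`;
if `2 ^ (c + 2 n) ≤ Z` then `c < K ^ 3` (`Zf_le`) and all `γ ≤ c` succeed (`gain_obj`, `succ_of`). -/
theorem core_spec {n L : ℕ} {ℓ : Mx} (hn : Even n) (h0 : 0 < n) (hℓ : Sym n (ent ℓ))
    (hL : ∀ u < n, ∀ v < n, ent ℓ u v ≤ L) :
    (core n L ℓ = 0 ∨ 2 ^ core n L ℓ ≤ Zf n (ent ℓ)) ∧ Zf n (ent ℓ) ≤ 2 ^ (core n L ℓ + 8 * n) := by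
  obtain ⟨K, hK⟩ : ∃ K, K = n + L + 16 := ⟨_, rfl⟩
  have hK16 : 16 ≤ K := by omega
  have hnK : n ≤ K := by omega
  have hLK : L + 1 ≤ K := by omega
  have hK3 : 4096 ≤ K ^ 3 := le_trans (by norm_num) (Nat.pow_le_pow_left hK16 3)
  have hH0 : 0 < 121 * K ^ 4 := by positivity
  have hc : core n L ℓ = cnt n K ℓ - (5 * n + 1) := by rw [hK]; rfl
  have hcnt : cnt n K ℓ =
    ((List.range (K ^ 3)).filter fun γ => succ n (K ^ 10) (121 * K ^ 4) γ ℓ (K ^ 21)).length := rfl
  constructor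
  · rcases Nat.eq_zero_or_pos (core n L ℓ) with h | h
    · exact Or.inl h
    right
    obtain ⟨γ, hγ, hs, hle⟩ := Core_exists_ge
      (fun γ => succ n (K ^ 10) (121 * K ^ 4) γ ℓ (K ^ 21)) (K ^ 3) (by rw [← hcnt]; omega)
    rw [← hcnt] at hle
    have hg := good_prun (D := K ^ 10) (H := 121 * K ^ 4) (γ := γ) hℓ (K ^ 21)
    have hnone : pstep n (K ^ 10) (121 * K ^ 4) γ ℓ (prun n (K ^ 10) (121 * K ^ 4) γ ℓ (K ^ 21)) = none :=
      Option.isNone_iff_eq_none.1 hs
    have hD : 16 * K ^ 3 * (121 * K ^ 4) ≤ K ^ 10 := by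
      calc 16 * K ^ 3 * (121 * K ^ 4) = 1936 * K ^ 7 := by ring
        _ ≤ K ^ 3 * K ^ 7 := Nat.mul_le_mul_right _ (by omega)
        _ = K ^ 10 := by ring
    have h1 := fine_bound hn h0 hℓ hg (fine_of_none hn hg hnone) hH0 hD hγ.le (by omega)
    have h2 : 2 ^ core n L ℓ * 2 ^ (5 * n) ≤ 2 ^ γ := by
      rw [← pow_add]
      exact Nat.pow_le_pow_right (by norm_num) (by omega)
    exact Nat.le_of_mul_le_mul_right (h2.trans h1) (by positivity)
  · by_contra hZ
    push Not at hZ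
    have h1 : 2 ^ (cnt n K ℓ + 2 * n) ≤ Zf n (ent ℓ) :=
      (Nat.pow_le_pow_right (by norm_num) (by omega)).trans hZ.le
    have h2 : cnt n K ℓ + 2 * n ≤ (L + 1) * n ^ 2 :=
      (Nat.pow_le_pow_iff_right (by norm_num)).1 (h1.trans (Zf_le hL))
    have h3 : (L + 1) * n ^ 2 ≤ K ^ 3 := by
      calc (L + 1) * n ^ 2 ≤ K * K ^ 2 := Nat.mul_le_mul hLK (Nat.pow_le_pow_left hnK 2)
        _ = K ^ 3 := by ring
    have hsz : (K ^ 10).size ≤ 10 * K := by
      rw [Nat.size_le, mul_comm, pow_mul]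
      exact Nat.pow_lt_pow_left Nat.lt_two_pow_self (by norm_num)
    have hH : n ^ 2 * (L + (K ^ 10).size + 1) ^ 2 ≤ 121 * K ^ 4 := by
      calc n ^ 2 * (L + (K ^ 10).size + 1) ^ 2 ≤ K ^ 2 * (11 * K) ^ 2 :=
            Nat.mul_le_mul (Nat.pow_le_pow_left hnK 2) (Nat.pow_le_pow_left (by omega) 2)
        _ = 121 * K ^ 4 := by ring
    have hD : n * (121 * K ^ 4) + n ^ 2 ≤ K ^ 10 := by
      have e1 : n * (121 * K ^ 4) ≤ 121 * K ^ 7 := by
        calc n * (121 * K ^ 4) ≤ K * (121 * K ^ 4) := Nat.mul_le_mul_right _ hnK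
          _ = 121 * K ^ 5 := by ring
          _ ≤ 121 * K ^ 7 := Nat.mul_le_mul_left _ (Nat.pow_le_pow_right (by omega) (by norm_num))
      have e2 : n ^ 2 ≤ K ^ 7 :=
        (Nat.pow_le_pow_left hnK 2).trans (Nat.pow_le_pow_right (by omega) (by norm_num))
      calc n * (121 * K ^ 4) + n ^ 2 ≤ 122 * K ^ 7 := by omega
        _ ≤ K ^ 3 * K ^ 7 := Nat.mul_le_mul_right _ (by omega)
        _ = K ^ 10 := by ring
    have hT : n * (K ^ 10) ^ 2 ≤ K ^ 21 := by
      calc n * (K ^ 10) ^ 2 ≤ K * (K ^ 10) ^ 2 := Nat.mul_le_mul_right _ hnK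
        _ = K ^ 21 := by ring
    have h4 := Core_le_length (fun γ => succ n (K ^ 10) (121 * K ^ 4) γ ℓ (K ^ 21))
      (N := K ^ 3) (c := cnt n K ℓ + 1) (by omega) fun γ hγ => by
        obtain ⟨x, hx, hobj⟩ := gain_obj (D := K ^ 10) (H := 121 * K ^ 4) (γ := γ) h0 hℓ
          ((Nat.pow_le_pow_right (by norm_num) (by omega)).trans h1) hD
        exact succ_of hℓ hx hL hH hH0 hobj hT
    rw [← hcnt] at h4
    omega

end Crest.Agent.R304C
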