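import Mathlib
import Crest.Prelude.Def_MultiplicityCount
import Crest.Prelude.Def_Matchings
import Crest.Agent.Lib.PolyTime.Codes

/-!
# Row 304, part C (S0467): deterministic `512 ^ n` approximation of the number of perfect matchings

Vertices are the numbers `< n`, matrices are lists of rows.  `Zf n ℓ` is the sum over the perfect matchings
of `K_n` of `2 ^ (ℓ M)`.  `InP n x` describes the perfect matching polytope of `K_n` (Edmonds).

* `UB` : Gibbs marginals `x ∈ P` with `∑ x log (w / y) ≥ log Z - ∑ y` for all `y > 0`.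
* `LB` : `x ∈ P → ∑ x log (w / x) ≤ log Z + n` (Edmonds + S0465 + Gibbs variational principle).
* `GR`, `Flow` : separation of the odd cut constraints by minimal minimum `a`-`b` cuts (Ford-Fulkerson).
* `Perc` : integer perceptron: it succeeds for small targets `γ`.   `Repair`, `Succ` : success bounds `γ`.
* `Core` : parameters.  `Weights` : reduction of multiplicities to powers of two on `K_n`.
* `PTa`, `PTb` : polynomial time.  `Final` : parsing.
All sums over pairs are over ORDERED pairs `(u, v)`, `u, v < n` (each edge twice).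
-/

set_option autoImplicit false

namespace Crest.Agent.R304C

open Finset Crest.Matchings

/-! ### the algorithm -/

abbrev Mx : Type := List (List ℕ)

def ent (M : Mx) (u v : ℕ) : ℕ := (M.getD u []).getD v 0

def mk (n : ℕ) (f : ℕ → ℕ → ℕ) : Mx := (List.range n).map fun u => (List.range n).map fun v => f u v

/-- total weight of the arcs leaving `S`. -/
def cut (n : ℕ) (M : Mx) (S : List ℕ) : ℕ :=
  ∑ u ∈ range n, ∑ v ∈ range n, if u ∈ S ∧ v ∉ S then ent M u v else 0

/-- push one unit along the arc `(u, v)` of a residual network. -/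
def flp (n : ℕ) (M : Mx) (u v : ℕ) : Mx :=
  mk n fun p q => ent M p q + (if p = v ∧ q = u then 1 else 0) - (if p = u ∧ q = v then 1 else 0)

/-- graph search; each reached vertex carries the residual network after pushing one unit to it. -/
def bfsStep (n : ℕ) (L : List (ℕ × Mx)) : List (ℕ × Mx) :=
  ((L.flatMap fun r => (List.range n).map fun v => (r, v)).find? fun t =>
      decide (t.2 ∉ L.map Prod.fst ∧ 0 < ent t.1.2 t.1.1 t.2)).elim L
    fun t => (t.2, flp n t.1.2 t.1.1 t.2) :: L

def bfs (n : ℕ) (R : Mx) (a : ℕ) : List (ℕ × Mx) := (bfsStep n)^[n] [(a, R)]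

/-- one augmentation from `a` to `b`. -/
def aug (n a b : ℕ) (R : Mx) : Mx := ((bfs n R a).find? fun r => decide (r.1 = b)).elim R Prod.snd

/-- vertices reachable from `a` after `τ` augmentations. -/
def mincut (n τ : ℕ) (X : Mx) (a b : ℕ) : List ℕ := (bfs n ((aug n a b)^[τ] X) a).map Prod.fst

/-- an odd set with cut `< τ`, if there is one. -/
def oddCut (n τ : ℕ) (X : Mx) : Option (List ℕ) :=
  ((List.range n).flatMap fun a => (List.range n).map fun b => mincut n τ X a b).find? fun S =>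
    decide (((List.range n).filter fun u => decide (u ∈ S)).length % 2 = 1 ∧ cut n X S < τ)

/-- indicator of the cut of `S`. -/
def ind (S : List ℕ) (p q : ℕ) : ℕ := if (p ∈ S ↔ q ∈ S) then 0 else 1

/-- integer approximation of `log₂ (w / x)`, `x = X / D`. -/
def gain (D : ℕ) (ℓ X : Mx) (p q : ℕ) : ℕ :=
  if p = q then 0 else ent ℓ p q + (D.size + 1) - (ent X p q).size

/-- one perceptron step; `none` means that no constraint is violated by more than `H`. -/
def pstep (n D H γ : ℕ) (ℓ X : Mx) : Option Mx :=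
  ((List.range n).find? fun u => decide (D + H < cut n X [u])).elim
    ((oddCut n (D - H) X).elim
      (if (∑ p ∈ range n, ∑ q ∈ range n, gain D ℓ X p q * ent X p q) + H < 2 * γ * D then
        some (mk n fun p q => ent X p q + gain D ℓ X p q) else none)
      fun S => some (mk n fun p q => ent X p q + ind S p q))
    fun u => some (mk n fun p q => ent X p q - ind [u] p q)

def prun (n D H γ : ℕ) (ℓ : Mx) (T : ℕ) : Mx :=
  (fun X => (pstep n D H γ ℓ X).getD X)^[T] (mk n fun _ _ => 0)

def succ (n D H γ : ℕ) (ℓ : Mx) (T : ℕ) : Bool := (pstep n D H γ ℓ (prun n D H γ ℓ T)).isNone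

/-- number of successful targets. -/
def cnt (n K : ℕ) (ℓ : Mx) : ℕ :=
  ((List.range (K ^ 3)).filter fun γ => succ n (K ^ 10) (121 * K ^ 4) γ ℓ (K ^ 21)).length

/-- approximation of `log₂ (Zf n ℓ)`; `L` bounds the entries of `ℓ`. -/
def core (n L : ℕ) (ℓ : Mx) : ℕ := cnt n (n + L + 16) ℓ - (5 * n + 1)

/-- multiplicity of the pair `u, v` in the list of records. -/
def wt (l : List (ℕ × ℕ × ℕ)) (u v : ℕ) : ℕ :=
  ((l.find? fun r => decide ((r.1 = u ∧ r.2.1 = v) ∨ (r.1 = v ∧ r.2.1 = u))).map fun r => r.2.2).getD 0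

def bigB (l : List (ℕ × ℕ × ℕ)) : ℕ := (l.map fun r => r.2.2.size).sum

def bb (n B : ℕ) : ℕ := n ^ 2 + n * B + 9 * n + 1

/-- exponent of the weight of a pair of multiplicity `w`. -/
def lw (b w : ℕ) : ℕ := if w = 0 then 0 else b + w.size - 1

def out (n b k : ℕ) : ℕ := if k + 9 * n < b * (n / 2) then 0 else 2 ^ (k - b * (n / 2))

def approx (n : ℕ) (l : List (ℕ × ℕ × ℕ)) : ℕ :=
  out n (bb n (bigB l))
    (core n (bb n (bigB l) + bigB l) (mk n fun u v => lw (bb n (bigB l)) (wt l u v)))

def answer (n : ℕ) (l : List (ℕ × ℕ × ℕ)) : ℕ :=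
  if n = 0 then 1 else if n % 2 = 1 ∨ 2 * l.length < n then 0 else approx (min n (2 * l.length)) l

/-! ### mathematical notions -/

/-- perfect matchings of `K_n` as sets of pairs `i < j`. -/
def PMs (n : ℕ) : Finset (Finset (Fin n × Fin n)) :=
  (ltPairs n).powerset.filter fun M => ∀ v : Fin n, (M.filter fun q => q.1 = v ∨ q.2 = v).card = 1

theorem mult_eq {n : ℕ} (w : Fin n → Fin n → ℕ) :
    multNumPerfectMatchings w = ∑ M ∈ PMs n, ∏ q ∈ M, w q.1 q.2 := rfl

/-- partition function with weights `2 ^ ℓ`. -/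
def Zf (n : ℕ) (ℓ : ℕ → ℕ → ℕ) : ℕ := ∑ M ∈ PMs n, ∏ q ∈ M, 2 ^ ℓ q.1 q.2

def cutF {R : Type*} [AddCommMonoid R] (n : ℕ) (f : ℕ → ℕ → R) (A : Finset ℕ) : R :=
  ∑ u ∈ range n, ∑ v ∈ range n, if u ∈ A ∧ v ∉ A then f u v else 0

def Sym {R : Type*} (n : ℕ) (f : ℕ → ℕ → R) : Prop := ∀ u < n, ∀ v < n, f u v = f v u

/-- Edmonds' description of the perfect matching polytope of `K_n`. -/
structure InP (n : ℕ) (x : ℕ → ℕ → ℝ) : Prop where
  nonneg : ∀ u < n, ∀ v < n, 0 ≤ x u v
  sym : Sym n x
  diag : ∀ u < n, x u u = 0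
  deg : ∀ u < n, ∑ v ∈ range n, x u v = 1
  odd : ∀ A ⊆ range n, Odd A.card → 1 ≤ cutF n x A

/-- symmetric matrices with zero diagonal. -/
structure Good (n : ℕ) (X : Mx) : Prop where
  sym : Sym n (ent X)
  diag : ∀ u < n, ent X u u = 0

/-- all constraints hold up to `H`. -/
structure Fine (n D H γ : ℕ) (ℓ X : Mx) : Prop where
  deg : ∀ u < n, ∑ v ∈ range n, ent X u v ≤ D + H
  odd : ∀ A ⊆ range n, Odd A.card → D ≤ cutF n (ent X) A + H
  obj : 2 * γ * D ≤ (∑ p ∈ range n, ∑ q ∈ range n, gain D ℓ X p q * ent X p q) + H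

/-! ### basic facts -/

theorem ent_mk {n : ℕ} (f : ℕ → ℕ → ℕ) {u v : ℕ} (hu : u < n) (hv : v < n) :
    ent (mk n f) u v = f u v := by
  simp [ent, mk, List.getD_eq_getElem?_getD, hu, hv]

theorem ent_mk' (n : ℕ) (f : ℕ → ℕ → ℕ) (u v : ℕ) :
    ent (mk n f) u v = if u < n ∧ v < n then f u v else 0 := by
  by_cases hu : u < n
  · by_cases hv : v < n
    · simp [ent_mk f hu hv, hu, hv]
    · simp [ent, mk, List.getD_eq_getElem?_getD, hu, hv]
  · simp [ent, mk, List.getD_eq_getElem?_getD, hu]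

/-- the part of a list below `n`. -/
def toF (n : ℕ) (S : List ℕ) : Finset ℕ := (range n).filter fun u => u ∈ S

theorem toF_subset (n : ℕ) (S : List ℕ) : toF n S ⊆ range n := filter_subset _ _

theorem mem_toF {n : ℕ} {S : List ℕ} {u : ℕ} : u ∈ toF n S ↔ u < n ∧ u ∈ S := by simp [toF]

theorem card_toF (n : ℕ) (S : List ℕ) :
    (toF n S).card = ((List.range n).filter fun u => decide (u ∈ S)).length := rfl

theorem cut_eq (n : ℕ) (M : Mx) (S : List ℕ) : cut n M S = cutF n (ent M) (toF n S) := by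
  unfold cut cutF
  refine sum_congr rfl fun u hu => sum_congr rfl fun v hv => ?_
  simp [mem_toF, mem_range.1 hu, mem_range.1 hv]

theorem cutF_congr {R : Type*} [AddCommMonoid R] {n : ℕ} {f g : ℕ → ℕ → R}
    (h : ∀ u < n, ∀ v < n, f u v = g u v) (A : Finset ℕ) : cutF n f A = cutF n g A :=
  sum_congr rfl fun u hu => sum_congr rfl fun v hv => by
    rw [h u (mem_range.1 hu) v (mem_range.1 hv)]

theorem cutF_compl {R : Type*} [AddCommMonoid R] {n : ℕ} {f : ℕ → ℕ → R} (hf : Sym n f)
    (A : Finset ℕ) : cutF n f (range n \ A) = cutF n f A := by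
  unfold cutF
  rw [sum_comm]
  refine sum_congr rfl fun u hu => sum_congr rfl fun v hv => ?_
  rw [hf v (mem_range.1 hv) u (mem_range.1 hu)]
  simp only [mem_sdiff, hu, hv, true_and, not_not]
  exact if_congr and_comm rfl rfl

theorem cutF_singleton {R : Type*} [AddCommMonoid R] {n : ℕ} {f : ℕ → ℕ → R} {u : ℕ} (hu : u < n)
    (h0 : f u u = 0) : cutF n f {u} = ∑ v ∈ range n, f u v := by
  unfold cutF
  rw [sum_eq_single u]
  · refine sum_congr rfl fun v _ => ?_
    by_cases h : v = u <;> simp [h, h0]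
  · intro p _ hp
    simp [hp]
  · intro h
    exact absurd (mem_range.2 hu) h

theorem toF_singleton {n u : ℕ} (hu : u < n) : toF n [u] = {u} := by
  ext v
  simp only [mem_toF, List.mem_singleton, mem_singleton]
  exact ⟨fun h => h.2, fun h => ⟨h ▸ hu, h⟩⟩

end Crest.Agent.R304C
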