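import Crest.Agent.R304C.Defs
import Crest.Agent.R304B.Final

/-!
# Row 304 C: the two inputs from part B (owner: helper20; do not edit)
-/

set_option autoImplicit false

namespace Crest.Agent.R304C

open Finset Crest.Matchings

/-- Edmonds' perfect matching polytope theorem. -/
theorem edmonds {v k : ℕ} (ends : Fin k → Fin v × Fin v) (hends : ∀ e, (ends e).1 ≠ (ends e).2)
    (x : Fin k → ℝ) (h0 : ∀ e, 0 ≤ x e)
    (hdeg : ∀ w, ∑ e ∈ univ.filter fun e => (ends e).1 = w ∨ (ends e).2 = w, x e = 1)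
    (hodd : ∀ S : Finset (Fin v), Odd S.card →
      1 ≤ ∑ e ∈ univ.filter fun e => ¬((ends e).1 ∈ S ↔ (ends e).2 ∈ S), x e) :
    ∃ p, IsMatchingLaw ends p ∧ ∀ e, marginal p e = x e := by
  exact Crest.Agent.R304B.edmonds_law hends x h0 hdeg hodd

/-- S0465. -/
theorem entropy_ge (m : ℕ) (hm : 1 ≤ m) (k : ℕ)
    (ends : Fin k → Fin (2 * m) × Fin (2 * m)) (hends : ∀ e, (ends e).1 ≠ (ends e).2)
    (p : Finset (Fin k) → ℝ) (hp : IsMatchingLaw ends p) :
    ∃ q : Finset (Fin k) → ℝ, IsMatchingLaw ends q ∧ (∀ e, marginal q e = marginal p e) ∧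
      ∑ e, Real.negMulLog (marginal p e) - (2 - 2 / (m : ℝ)) * ∑ e, Real.negMulLog (1 - marginal p e)
        ≤ lawEntropy q := by
  obtain ⟨q, hq, hqm, h⟩ := Crest.Agent.R304B.entropy_bound hm hends hp
  exact ⟨q, hq, fun e => congrFun hqm e, h⟩

end Crest.Agent.R304C
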