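import Crest.Agent.R304C.PTa
import Crest.Agent.Lib.PolyTime.More

/-!
# Row 304 C: the algorithm is polynomial time
-/

set_option autoImplicit false

namespace Crest.Agent.R304C

open Finset Crest.Matchings Crest.Agent.Lib.PolyTime

variable {α : Type} [Enc α] {n D H γ T K L p q : α → ℕ} {ℓ X : α → Mx} {l : α → List (ℕ × ℕ × ℕ)}

@[fun_prop] theorem indT {S : α → List ℕ} (hS : PT S) (hp : PT p) (hq : PT q) :
    PT fun a => ind (S a) (p a) (q a) := by
  unfold ind; fun_prop

@[fun_prop] theorem gainT (hD : PT D) (hℓ : PT ℓ) (hX : PT X) (hp : PT p) (hq : PT q) :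
    PT fun a => gain (D a) (ℓ a) (X a) (p a) (q a) := by
  unfold gain; fun_prop

@[fun_prop] theorem pstepT (hn : PT n) (hn' : PB n) (hD : PT D) (hD' : PB D) (hH : PT H) (hγ : PT γ)
    (hℓ : PT ℓ) (hX : PT X) : PT fun a => pstep (n a) (D a) (H a) (γ a) (ℓ a) (X a) := by
  have h1 : PB fun a => D a - H a := hD'.mono fun a => Nat.sub_le _ _
  have h2 : PT fun a => (List.range (n a)).find? fun u => decide (D a + H a < cut (n a) (X a) [u]) :=
    (PT.range hn hn').find? (PT.decide (PT.nat_lt (by fun_prop)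
      (cutT (by fun_prop) (hn'.comp PT.fst') (by fun_prop) (by fun_prop))))
  have h3 : PT fun a => oddCut (n a) (D a - H a) (X a) := oddCutT hn hn' (by fun_prop) h1 hX
  have h4 : PT fun a => ∑ p ∈ range (n a), ∑ q ∈ range (n a),
      gain (D a) (ℓ a) (X a) p q * ent (X a) p q :=
    PT.sum_range_nat hn hn' (PT.sum_range_nat (by fun_prop) (hn'.comp PT.fst') (by fun_prop))
  have h5 : PT fun a => mk (n a) fun p q => ent (X a) p q + gain (D a) (ℓ a) (X a) p q :=
    mkT hn hn' (by fun_prop)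
  have h6 : PT fun r : α × List ℕ => mk (n r.1) fun p q => ent (X r.1) p q + ind r.2 p q :=
    mkT (by fun_prop) (hn'.comp PT.fst') (by fun_prop)
  have h7 : PT fun r : α × ℕ => mk (n r.1) fun p q => ent (X r.1) p q - ind [r.2] p q :=
    mkT (by fun_prop) (hn'.comp PT.fst') (by fun_prop)
  unfold pstep
  exact h2.option_elim (h3.option_elim (PT.ite (PT.nat_lt (h4.nat_add hH) (by fun_prop)) h5.some
    (PT.const _)) h6.some) h7.some

theorem PTb_ok_step {n D H γ B C : ℕ} {ℓ X : Mx} (hℓ : ∀ u v, ent ℓ u v ≤ C) (hX : Ok n B X) :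
    Ok n (B + (C + D + 1)) ((pstep n D H γ ℓ X).getD X) := by
  have hi : ∀ S p q, ind S p q ≤ 1 := fun S p q => by unfold ind; split_ifs <;> omega
  have hg : ∀ p q, gain D ℓ X p q ≤ C + D + 1 := fun p q => by
    have := hℓ p q
    have : D.size ≤ D := Nat.size_le.2 Nat.lt_two_pow_self
    unfold gain
    split_ifs <;> omega
  unfold pstep
  generalize List.find? _ (List.range n) = o
  cases o with
  | some u =>
    exact ok_mk fun p q => by have := hX.ent_le p q; omega
  | none =>
    generalize oddCut n (D - H) X = o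
    cases o with
    | some S =>
      exact ok_mk fun p q => by have := hX.ent_le p q; have := hi S p q; omega
    | none =>
      simp only [Option.elim_none]
      split_ifs
      · exact ok_mk fun p q => by have := hX.ent_le p q; have := hg p q; omega
      · exact hX.mono le_rfl (Nat.le_add_right _ _)

theorem PTb_ok_iter (n D H γ : ℕ) (ℓ : Mx) (i : ℕ) :
    Ok n (i * (2 ^ esize ℓ + D + 1))
      ((fun X => (pstep n D H γ ℓ X).getD X)^[i] (mk n fun _ _ => 0)) := by
  induction i with
  | zero => exact ok_mk fun _ _ => Nat.zero_le _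
  | succ i ih =>
    rw [Function.iterate_succ_apply', Nat.succ_mul]
    exact PTb_ok_step (ok_self ℓ).ent_le ih

@[fun_prop] theorem prunT (hn : PT n) (hn' : PB n) (hD : PT D) (hD' : PB D) (hH : PT H) (hγ : PT γ)
    (hℓ : PT ℓ) (hT : PT T) (hT' : PB T) :
    PT fun a => prun (n a) (D a) (H a) (γ a) (ℓ a) (T a) := by
  unfold prun
  refine PT.iterate (f := fun a X => (pstep (n a) (D a) (H a) (γ a) (ℓ a) X).getD X)
    (fun a => n a * (n a * (6 * (T a + (esize (ℓ a) + D a + 1)) + 8) + 2) + 1) hT hT'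
    (mkT hn hn' (PT.const 0))
    ((pstepT (by fun_prop) (hn'.comp PT.fst') (by fun_prop) (hD'.comp PT.fst') (by fun_prop)
      (by fun_prop) (by fun_prop) PT.snd').option_getD PT.snd') (by fun_prop) fun a i hi => ?_
  refine ((PTb_ok_iter _ _ _ _ _ i).mono le_rfl ?_).esize_le
  rw [pow_add]
  refine Nat.mul_le_mul (hi.trans Nat.lt_two_pow_self.le) ?_
  have h1 : D a + 1 ≤ 2 ^ D a := Nat.lt_two_pow_self
  have h2 : 0 < 2 ^ esize (ℓ a) := by positivity
  have h3 : 0 < 2 ^ D a := by positivity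
  rw [pow_succ, pow_add]
  nlinarith

@[fun_prop] theorem succT (hn : PT n) (hn' : PB n) (hD : PT D) (hD' : PB D) (hH : PT H) (hγ : PT γ)
    (hℓ : PT ℓ) (hT : PT T) (hT' : PB T) :
    PT fun a => succ (n a) (D a) (H a) (γ a) (ℓ a) (T a) := by
  exact (pstepT hn hn' hD hD' hH hγ hℓ (prunT hn hn' hD hD' hH hγ hℓ hT hT')).isNone

@[fun_prop] theorem cntT (hn : PT n) (hn' : PB n) (hK : PT K) (hK' : PB K) (hℓ : PT ℓ) :
    PT fun a => cnt (n a) (K a) (ℓ a) := by
  have hK1 : PB fun r : α × ℕ => K r.1 := hK'.comp PT.fst'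
  have h1 : PT fun a => List.range (K a ^ 3) := PT.range (by fun_prop) (by fun_prop)
  have h2 : PT fun r : α × ℕ =>
      succ (n r.1) (K r.1 ^ 10) (121 * K r.1 ^ 4) r.2 (ℓ r.1) (K r.1 ^ 21) :=
    succT (by fun_prop) (hn'.comp PT.fst') (by fun_prop) (by fun_prop) (by fun_prop) PT.snd'
      (by fun_prop) (by fun_prop) (by fun_prop)
  exact (h1.filter (f := fun a γ => succ (n a) (K a ^ 10) (121 * K a ^ 4) γ (ℓ a) (K a ^ 21)) h2).length

theorem core_le (n L : ℕ) (ℓ : Mx) : core n L ℓ ≤ (n + L + 16) ^ 3 := by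
  unfold core cnt
  exact (Nat.sub_le _ _).trans ((List.length_filter_le _ _).trans (by simp))

@[fun_prop] theorem coreT (hn : PT n) (hn' : PB n) (hL : PT L) (hL' : PB L) (hℓ : PT ℓ) :
    PT fun a => core (n a) (L a) (ℓ a) := by
  unfold core; fun_prop

@[fun_prop] theorem wtT (hl : PT l) (hp : PT p) (hq : PT q) : PT fun a => wt (l a) (p a) (q a) := by
  unfold wt; fun_prop

@[fun_prop] theorem bigBT (hl : PT l) : PT fun a => bigB (l a) := by
  unfold bigB; fun_prop

@[fun_prop] theorem bigB_pb (hl : PT l) : PB fun a => bigB (l a) := by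
  exact PB.sum_map (g := fun _ (r : ℕ × ℕ × ℕ) => r.2.2.size) hl (PB.natSize (by fun_prop))

@[fun_prop] theorem approxT (hn : PT n) (hn' : PB n) (hl : PT l) : PT fun a => approx (n a) (l a) := by
  have hb : PT fun a => bb (n a) (bigB (l a)) := by unfold bb; fun_prop
  have hb' : PB fun a => bb (n a) (bigB (l a)) := by unfold bb; fun_prop
  have hb1 : PT fun r : α × ℕ × ℕ => bb (n r.1) (bigB (l r.1)) := hb.comp PT.fst'
  have hm : PT fun a => mk (n a) fun u v => lw (bb (n a) (bigB (l a))) (wt (l a) u v) := by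
    refine mkT hn hn' ?_
    unfold lw
    fun_prop
  have hk : PT fun a => core (n a) (bb (n a) (bigB (l a)) + bigB (l a))
      (mk (n a) fun u v => lw (bb (n a) (bigB (l a))) (wt (l a) u v)) :=
    coreT hn hn' (by fun_prop) (by fun_prop) hm
  have hk' : PB fun a => core (n a) (bb (n a) (bigB (l a)) + bigB (l a))
      (mk (n a) fun u v => lw (bb (n a) (bigB (l a))) (wt (l a) u v)) :=
    PB.mono (g' := fun a => (n a + (bb (n a) (bigB (l a)) + bigB (l a)) + 16) ^ 3) (by fun_prop)
      fun a => core_le _ _ _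
  unfold approx out
  refine PT.ite (by fun_prop) (by fun_prop) (PT.nat_pow (PT.const 2) (by fun_prop) ?_)
  exact hk'.mono fun a => Nat.sub_le _ _

theorem answerT (hn : PT n) (hl : PT l) : PT fun a => answer (n a) (l a) := by
  have h1 : PT fun a => approx (min (n a) (2 * (l a).length)) (l a) :=
    approxT (by fun_prop) (PB.min_right (by fun_prop)) hl
  unfold answer
  fun_prop

end Crest.Agent.R304C
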