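import Crest.Agent.R304C.PM

/-!
# Row 304 C: from multiplicities to powers of two
-/

set_option autoImplicit false

namespace Crest.Agent.R304C

open Finset Crest.Matchings

variable {n : ℕ}

theorem Weights_prod {M : Finset (Fin n × Fin n)} (hM : M ∈ PMs n) (c : ℕ) (f : Fin n × Fin n → ℕ) :
    c ^ (n / 2) * ∏ q ∈ M, f q = ∏ q ∈ M, c * f q := by
  rw [prod_mul_distrib, prod_const, show n / 2 = M.card by have := card_of_mem_PMs hM; omega]

/-- termwise `2 ^ b w ≤ 2 * 2 ^ lw b w`; a matching has `n / 2` pairs. -/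
theorem mult_le_Zf (b : ℕ) (w : Fin n → Fin n → ℕ) {ℓ : ℕ → ℕ → ℕ}
    (hℓ : ∀ u v : Fin n, u < v → ℓ u v = lw b (w u v)) :
    2 ^ (b * (n / 2)) * multNumPerfectMatchings w ≤ 2 ^ (n / 2) * Zf n ℓ := by
  rw [mult_eq, Zf, mul_sum, mul_sum]
  refine sum_le_sum fun M hM => ?_
  rw [pow_mul, Weights_prod hM, Weights_prod hM]
  refine prod_le_prod' fun q hq => ?_
  rw [hℓ _ _ ((mem_PMs.1 hM).1 q hq), lw]
  split_ifs with h
  · simp [h]
  · have h1 := Nat.size_pos.2 (Nat.pos_of_ne_zero h)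
    rw [← pow_succ', show b + (w q.1 q.2).size - 1 + 1 = b + (w q.1 q.2).size by omega, pow_add]
    exact Nat.mul_le_mul_left _ (Nat.lt_size_self _).le

/-- a matching with all `w > 0` has weight `≤ 2 ^ (b n / 2) ∏ w`, any other one has a factor `1`, so weight
`≤ 2 ^ ((b + B) (n / 2 - 1))`; `card_PMs_le`. -/
theorem Zf_le_mult (b B : ℕ) (w : Fin n → Fin n → ℕ) (hB : ∀ u v : Fin n, u < v → (w u v).size ≤ B)
    {ℓ : ℕ → ℕ → ℕ} (hℓ : ∀ u v : Fin n, u < v → ℓ u v = lw b (w u v)) :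
    Zf n ℓ ≤ 2 ^ (b * (n / 2)) * multNumPerfectMatchings w + 2 ^ (n ^ 2 + (b + B) * (n / 2 - 1)) := by
  have h1 : ∀ M ∈ PMs n, ∏ q ∈ M, 2 ^ ℓ q.1 q.2 ≤
      2 ^ (b * (n / 2)) * ∏ q ∈ M, w q.1 q.2 + 2 ^ ((b + B) * (n / 2 - 1)) := by
    intro M hM
    have hlt := (mem_PMs.1 hM).1
    by_cases h : ∃ q ∈ M, w q.1 q.2 = 0
    · obtain ⟨q, hq, h0⟩ := h
      refine le_add_left ?_
      rw [← mul_prod_erase _ _ hq, hℓ _ _ (hlt q hq), lw, if_pos h0, pow_zero, one_mul, pow_mul,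
        show n / 2 - 1 = (M.erase q).card by
          have := card_of_mem_PMs hM; rw [card_erase_of_mem hq]; omega]
      refine prod_le_pow_card _ _ _ fun r hr => Nat.pow_le_pow_right two_pos ?_
      have hr' := hlt r (mem_of_mem_erase hr)
      have := hB _ _ hr'
      rw [hℓ _ _ hr', lw]
      split_ifs <;> omega
    · refine le_add_right ?_
      rw [pow_mul, Weights_prod hM]
      refine prod_le_prod' fun q hq => ?_
      have h0 : w q.1 q.2 ≠ 0 := fun h0 => h ⟨q, hq, h0⟩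
      have h1 := Nat.size_pos.2 (Nat.pos_of_ne_zero h0)
      rw [hℓ _ _ (hlt q hq), lw, if_neg h0, Nat.add_sub_assoc h1, pow_add]
      exact Nat.mul_le_mul_left _ (Nat.lt_size.1 (by omega))
  refine (sum_le_sum h1).trans ?_
  rw [sum_add_distrib, ← mul_sum, sum_const, smul_eq_mul, pow_add]
  exact Nat.add_le_add_left (Nat.mul_le_mul_right _ (card_PMs_le n)) _

/-- with `m = n / 2 ≥ 1`, `b = bb n B`: `n² + (b + B)(m - 1) + 9 n < b m`. -/
theorem out_spec (hn : Even n) (h0 : 0 < n) (B k : ℕ) (w : Fin n → Fin n → ℕ)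
    (hB : ∀ u v : Fin n, u < v → (w u v).size ≤ B) {ℓ : ℕ → ℕ → ℕ}
    (hℓ : ∀ u v : Fin n, u < v → ℓ u v = lw (bb n B) (w u v))
    (h1 : k = 0 ∨ 2 ^ k ≤ Zf n ℓ) (h2 : Zf n ℓ ≤ 2 ^ (k + 8 * n)) :
    multNumPerfectMatchings w ≤ 512 ^ n * out n (bb n B) k ∧
      out n (bb n B) k ≤ multNumPerfectMatchings w := by
  have hA := mult_le_Zf _ w hℓ
  have hZ := Zf_le_mult _ B w hB hℓ
  obtain ⟨m, hm⟩ : ∃ m, n / 2 = m + 1 := ⟨n / 2 - 1, by obtain ⟨r, rfl⟩ := hn; omega⟩
  have hE : n ^ 2 + (bb n B + B) * (n / 2 - 1) + 9 * n < bb n B * (n / 2) := by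
    have : B * m ≤ n * B := by rw [mul_comm]; exact Nat.mul_le_mul_right _ (by omega)
    rw [hm, Nat.add_sub_cancel, add_mul, mul_add_one]
    have hb : bb n B = n ^ 2 + n * B + 9 * n + 1 := rfl
    omega
  unfold out
  generalize n ^ 2 + (bb n B + B) * (n / 2 - 1) = E at hE hZ
  generalize bb n B * (n / 2) = D at hE hZ hA
  generalize multNumPerfectMatchings w = N at hZ hA
  have hA' : 2 ^ D * N ≤ 2 ^ (k + 9 * n) := by
    refine hA.trans ((Nat.mul_le_mul_left _ h2).trans ?_)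
    rw [← pow_add]
    exact Nat.pow_le_pow_right two_pos (by omega)
  have hD : 0 < 2 ^ D := by positivity
  split_ifs with h
  · refine ⟨?_, Nat.zero_le _⟩
    have := hA'.trans_lt (Nat.pow_lt_pow_right one_lt_two h)
    have := (mul_lt_iff_lt_one_right hD).1 this
    omega
  · refine ⟨Nat.le_of_mul_le_mul_left (hA'.trans ?_) hD, ?_⟩
    · rw [show 512 = 2 ^ 9 from rfl, ← pow_mul, ← pow_add, ← pow_add]
      exact Nat.pow_le_pow_right two_pos (by omega)
    · have h3 := (h1.resolve_left (by omega)).trans hZ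
      rcases le_or_gt k D with h4 | h4
      · have h5 := Nat.pow_lt_pow_right one_lt_two (show E < k by omega)
        rw [Nat.sub_eq_zero_of_le h4, pow_zero]
        refine Nat.pos_of_ne_zero ?_
        rintro rfl
        omega
      · have h5 := Nat.pow_lt_pow_right one_lt_two (show E < D by omega)
        refine Nat.lt_succ_iff.1 (Nat.lt_of_mul_lt_mul_left (a := 2 ^ D) ?_)
        rw [← pow_add, Nat.add_sub_cancel' h4.le, Nat.mul_succ]
        omega

end Crest.Agent.R304C
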