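import Crest.Agent.R304C.Core
import Crest.Agent.R304C.Weights
import Crest.Agent.R304C.PTb

/-!
# Row 304 C: parsing and the final statement
-/

set_option autoImplicit false

namespace Crest.Agent.R304C

open Finset Crest.Matchings Crest.Enc Crest.Agent.Lib.PolyTime

/-- the records of the input. -/
def recs (n : ℕ) (w : Fin n → Fin n → ℕ) : List (ℕ × ℕ × ℕ) :=
  (posPairs n w).map fun q => ((q.1 : ℕ), (q.2 : ℕ), w q.1 q.2)

theorem wt_symm (l : List (ℕ × ℕ × ℕ)) (u v : ℕ) : wt l u v = wt l v u := by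
  unfold wt
  simp only [or_comm]

theorem size_wt_le (l : List (ℕ × ℕ × ℕ)) (u v : ℕ) : (wt l u v).size ≤ bigB l := by
  unfold wt bigB
  cases h : l.find? fun r => decide ((r.1 = u ∧ r.2.1 = v) ∨ (r.1 = v ∧ r.2.1 = u)) with
  | none => simp
  | some r =>
    simp only [Option.map_some, Option.getD_some]
    exact List.single_le_sum (fun _ _ => Nat.zero_le _) _
      (List.mem_map.2 ⟨r, List.mem_of_find?_eq_some h, rfl⟩)

theorem mem_posPairs {n : ℕ} {w : Fin n → Fin n → ℕ} {q : Fin n × Fin n} :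
    q ∈ posPairs n w ↔ q.1 < q.2 ∧ 0 < w q.1 q.2 := by
  obtain ⟨a, b⟩ := q
  simp [posPairs, List.pair_mem_product]

theorem wt_recs {n : ℕ} (w : Fin n → Fin n → ℕ) {u v : Fin n} (h : u < v) :
    wt (recs n w) u v = w u v := by
  unfold wt
  cases hf : (recs n w).find? fun r : ℕ × ℕ × ℕ =>
      decide ((r.1 = (u : ℕ) ∧ r.2.1 = (v : ℕ)) ∨ (r.1 = (v : ℕ) ∧ r.2.1 = (u : ℕ))) with
  | none =>
    simp only [Option.map_none, Option.getD_none]
    by_contra hne
    have hm : ((u : ℕ), (v : ℕ), w u v) ∈ recs n w :=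
      List.mem_map.2 ⟨(u, v), mem_posPairs.2 ⟨h, Nat.pos_of_ne_zero (Ne.symm hne)⟩, rfl⟩
    have := List.find?_eq_none.1 hf _ hm
    simp at this
  | some r =>
    simp only [Option.map_some, Option.getD_some]
    obtain ⟨q, hq, rfl⟩ := List.mem_map.1 (List.mem_of_find?_eq_some hf)
    have h1 := List.find?_some hf
    have h2 := (mem_posPairs.1 hq).1
    simp only [decide_eq_true_eq] at h1
    rcases h1 with ⟨e1, e2⟩ | ⟨e1, e2⟩
    · rw [Fin.ext e1, Fin.ext e2]
    · exfalso
      have := Fin.lt_def.1 h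
      have := Fin.lt_def.1 h2
      omega

theorem answer_spec (n : ℕ) (w : Fin n → Fin n → ℕ) :
    multNumPerfectMatchings w ≤ 512 ^ n * answer n (recs n w) ∧
      answer n (recs n w) ≤ multNumPerfectMatchings w := by
  unfold answer
  split_ifs with h0 h1
  · subst h0
    simp [mult_zero]
  · have : (recs n w).length = (posPairs n w).length := List.length_map _
    rw [mult_eq_zero w (this ▸ h1)]
    simp
  · have hn : Even n := by
      rw [Nat.even_iff]
      omega
    have hp : 0 < n := Nat.pos_of_ne_zero h0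
    rw [min_eq_left (by omega)]
    unfold approx
    set l := recs n w with hl
    set b := bb n (bigB l) with hb
    have hs : Sym n (ent (mk n fun u v => lw b (wt l u v))) := by
      intro u hu v hv
      rw [ent_mk _ hu hv, ent_mk _ hv hu, wt_symm]
    have hL : ∀ u < n, ∀ v < n, ent (mk n fun u v => lw b (wt l u v)) u v ≤ b + bigB l := by
      intro u hu v hv
      rw [ent_mk _ hu hv]
      have := size_wt_le l u v
      unfold lw
      split_ifs <;> omega
    obtain ⟨h2, h3⟩ := core_spec hn hp hs hL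
    refine out_spec hn hp (bigB l) _ w (fun u v huv => ?_) (fun u v huv => ?_) h2 h3
    · rw [← wt_recs w huv]
      exact size_wt_le l u v
    · rw [ent_mk _ u.2 v.2, hl, wt_recs w huv]

theorem exists_decoder : ∃ dec : List Bool → ℕ × List (ℕ × ℕ × ℕ), PT dec ∧
    ∀ (n : ℕ) (w : Fin n → Fin n → ℕ), dec (pairMultCode n w) = (n, recs n w) := by
  have h3 : Parses (ι := Unit × ℕ)
      (fun _ (r : ℕ × ℕ × ℕ) => natCode r.1 ++ (natCode r.2.1 ++ natCode r.2.2)) (fun _ _ => True) :=
    (Parses.nat.seq (Parses.nat.seq Parses.nat)).congr fun i a _ => ⟨⟨trivial, trivial, trivial⟩, rfl⟩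
  obtain ⟨dec, hdec, hd⟩ := ((Parses.nat (ι := Unit)).seq h3.list).exists_decoder
  refine ⟨dec, hdec, fun n w => ?_⟩
  rw [← hd (n, recs n w) ⟨trivial, fun a _ => ⟨trivial, by simp [natCode_ne_nil]⟩⟩]
  congr 1
  simp [pairMultCode, recs, List.map_map, Function.comp_def]

theorem main : ∃ f : List Bool → List Bool, Crest.Complexity.PolyTime f ∧
    ∀ (n : ℕ) (w : Fin n → Fin n → ℕ), (∀ i j, w i j = w j i) → (∀ i, w i i = 0) →
      ∃ A : ℕ, f (pairMultCode n w) = natCode A ∧
        multNumPerfectMatchings w ≤ 512 ^ n * A ∧ A ≤ multNumPerfectMatchings w := by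
  obtain ⟨dec, hdec, hd⟩ := exists_decoder
  refine ⟨fun s => natCode (answer (dec s).1 (dec s).2),
    (PT.natCode (answerT hdec.fst hdec.snd)).polyTime, fun n w _ _ => ⟨answer n (recs n w), ?_, answer_spec n w⟩⟩
  simp only [hd]

end Crest.Agent.R304C
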