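import Crest.Agent.R304C.GR

/-!
# Row 304 C: Ford-Fulkerson and the separation oracle
-/

set_option autoImplicit false

namespace Crest.Agent.R304C

open Finset Crest.Matchings

variable {n a b τ : ℕ} {R M X : Mx}

theorem Flow_cutF_add (f g : ℕ → ℕ → ℕ) (A : Finset ℕ) :
    cutF n (fun p q => f p q + g p q) A = cutF n f A + cutF n g A := by
  unfold cutF
  rw [← sum_add_distrib]
  refine sum_congr rfl fun u _ => ?_
  rw [← sum_add_distrib]
  refine sum_congr rfl fun v _ => ?_
  split_ifs <;> rfl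

theorem Flow_cutF_arc {u v : ℕ} (hu : u < n) (hv : v < n) (A : Finset ℕ) :
    cutF n (fun p q => if p = u ∧ q = v then 1 else 0) A = if u ∈ A ∧ v ∉ A then 1 else 0 := by
  unfold cutF
  rw [sum_eq_single u, sum_eq_single v]
  · simp
  · intro q _ hq
    simp [hq]
  · intro h
    exact absurd (mem_range.2 hv) h
  · intro p _ hp
    simp [hp]
  · intro h
    exact absurd (mem_range.2 hu) h

theorem cutF_flp {u v : ℕ} (hu : u < n) (hv : v < n) (huv : u ≠ v) (h : 0 < ent M u v) (A : Finset ℕ) :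
    cutF n (ent (flp n M u v)) A + (if u ∈ A then 1 else 0) =
      cutF n (ent M) A + if v ∈ A then 1 else 0 := by
  have e : cutF n (fun p q => ent (flp n M u v) p q + if p = u ∧ q = v then 1 else 0) A =
      cutF n (fun p q => ent M p q + if p = v ∧ q = u then 1 else 0) A := by
    refine cutF_congr (fun p hp q hq => ?_) A
    rw [flp, ent_mk _ hp hq]
    by_cases h1 : p = u ∧ q = v
    · obtain ⟨rfl, rfl⟩ := h1
      simp only [and_self, if_true]
      omega
    · simp [h1]
  rw [Flow_cutF_add, Flow_cutF_add, Flow_cutF_arc hu hv, Flow_cutF_arc hv hu] at e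
  by_cases h1 : u ∈ A <;> by_cases h2 : v ∈ A <;> simp [h1, h2] at e ⊢ <;> omega

/-- invariant of the search. -/
structure BI (n : ℕ) (R : Mx) (a : ℕ) (L : List (ℕ × Mx)) : Prop where
  lt : ∀ r ∈ L, r.1 < n
  start : a ∈ L.map Prod.fst
  nodup : (L.map Prod.fst).Nodup
  cut : ∀ r ∈ L, ∀ A : Finset ℕ, cutF n (ent r.2) A + (if a ∈ A then 1 else 0) =
    cutF n (ent R) A + if r.1 ∈ A then 1 else 0
  ge : ∀ r ∈ L, ∀ p < n, ∀ q < n, q ∉ L.map Prod.fst → ent R p q ≤ ent r.2 p q

/-- the candidate arcs -/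
theorem Flow_step_cases (n : ℕ) (L : List (ℕ × Mx)) :
    (bfsStep n L = L ∧ ∀ r ∈ L, ∀ v < n, v ∉ L.map Prod.fst → ent r.2 r.1 v = 0) ∨
      ∃ r ∈ L, ∃ v < n, v ∉ L.map Prod.fst ∧ 0 < ent r.2 r.1 v ∧
        bfsStep n L = (v, flp n r.2 r.1 v) :: L := by
  unfold bfsStep
  rcases hf : (L.flatMap fun r => (List.range n).map fun v => (r, v)).find? fun t =>
      decide (t.2 ∉ L.map Prod.fst ∧ 0 < ent t.1.2 t.1.1 t.2) with _ | t
  · refine Or.inl ⟨by rw [hf]; rfl, fun r hr v hv hv' => ?_⟩
    have := List.find?_eq_none.1 hf (r, v)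
      (List.mem_flatMap.2 ⟨r, hr, List.mem_map.2 ⟨v, List.mem_range.2 hv, rfl⟩⟩)
    rw [decide_eq_true_eq, not_and] at this
    exact Nat.eq_zero_of_not_pos (this hv')
  · have h1 := List.find?_some hf
    rw [decide_eq_true_eq] at h1
    obtain ⟨r, hr, h2⟩ := List.mem_flatMap.1 (List.mem_of_find?_eq_some hf)
    obtain ⟨v, hv, rfl⟩ := List.mem_map.1 h2
    exact Or.inr ⟨r, hr, v, List.mem_range.1 hv, h1.1, h1.2, by rw [hf]; rfl⟩

theorem BI.step {L : List (ℕ × Mx)} (h : BI n R a L) : BI n R a (bfsStep n L) := by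
  rcases Flow_step_cases n L with ⟨e, -⟩ | ⟨r, hr, v, hv, hv', hpos, e⟩
  · rw [e]
    exact h
  · rw [e]
    have hne : r.1 ≠ v := fun h' => hv' (h' ▸ List.mem_map_of_mem hr)
    refine ⟨fun r' hr' => ?_, List.mem_cons_of_mem _ h.start, List.nodup_cons.2 ⟨hv', h.nodup⟩,
      fun r' hr' A => ?_, fun r' hr' p hp q hq hq' => ?_⟩
    · rcases List.mem_cons.1 hr' with rfl | hr'
      · exact hv
      · exact h.lt r' hr'
    · rcases List.mem_cons.1 hr' with rfl | hr'
      · have h1 := cutF_flp (h.lt r hr) hv hne hpos A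
        have h2 := h.cut r hr A
        simp only
        omega
      · exact h.cut r' hr' A
    · rw [List.map_cons, List.mem_cons, not_or] at hq'
      rcases List.mem_cons.1 hr' with rfl | hr'
      · have h1 := h.ge r hr p hp q hq hq'.2
        have h2 : q ≠ v := hq'.1
        simp only [flp]
        rw [ent_mk _ hp hq, if_neg (fun h' : p = r.1 ∧ q = v => h2 h'.2)]
        omega
      · exact h.ge r' hr' p hp q hq hq'.2

theorem bfs_inv (ha : a < n) (R : Mx) : BI n R a (bfs n R a) := by
  refine Function.Iterate.rec (BI n R a) ?_ (fun L (h : BI n R a L) => h.step) n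
  refine ⟨?_, by simp, by simp, ?_, ?_⟩
  · intro r hr
    rw [List.mem_singleton.1 hr]
    exact ha
  · intro r hr A
    rw [List.mem_singleton.1 hr]
  · intro r hr p _ q _ _
    rw [List.mem_singleton.1 hr]

/-- every step either adds a new vertex or is stationary; there are only `n` vertices. -/
theorem bfs_closed (ha : a < n) (R : Mx) {u v : ℕ} (hu : u ∈ (bfs n R a).map Prod.fst) (hv : v < n)
    (hv' : v ∉ (bfs n R a).map Prod.fst) : ent R u v = 0 := by
  have key : ∀ k, k + 1 ≤ ((bfsStep n)^[k] [(a, R)]).length ∨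
      (bfsStep n ((bfsStep n)^[k] [(a, R)]) = (bfsStep n)^[k] [(a, R)]) := by
    intro k
    induction k with
    | zero => exact Or.inl (by simp)
    | succ k ih =>
      rw [Function.iterate_succ_apply']
      rcases Flow_step_cases n ((bfsStep n)^[k] [(a, R)]) with ⟨e, -⟩ | ⟨r, -, v, -, -, -, e⟩
      · right
        rw [e, e]
      · rcases ih with ih | ih
        · left
          rw [e, List.length_cons]
          omega
        · right
          rw [ih, ih]
  have hB := bfs_inv ha R
  have hlen : (bfs n R a).length ≤ n := by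
    have h1 : ((bfs n R a).map Prod.fst).toFinset ⊆ range n := fun x hx => by
      obtain ⟨r, hr, rfl⟩ := List.mem_map.1 (List.mem_toFinset.1 hx)
      exact mem_range.2 (hB.lt r hr)
    have h2 := card_le_card h1
    rwa [List.toFinset_card_of_nodup hB.nodup, List.length_map, card_range] at h2
  obtain ⟨r, hr, rfl⟩ := List.mem_map.1 hu
  rcases Flow_step_cases n (bfs n R a) with ⟨-, e⟩ | ⟨r', -, v', -, -, -, e⟩
  · have h1 := hB.ge r hr r.1 (hB.lt r hr) v hv hv'
    rw [e r hr v hv hv'] at h1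
    omega
  · rcases key n with h1 | h1
    · exact absurd (h1.trans hlen) (by omega)
    · have h2 : bfsStep n (bfs n R a) = bfs n R a := h1
      rw [e] at h2
      have := congrArg List.length h2
      simp at this

/-- after `t` rounds the flow value `F` is `t`, or `b` is not reachable. -/
theorem aug_iter (ha : a < n) (X : Mx) (t : ℕ) :
    ∃ F : ℕ, (∀ A : Finset ℕ, cutF n (ent ((aug n a b)^[t] X)) A + (if a ∈ A then F else 0) =
        cutF n (ent X) A + if b ∈ A then F else 0) ∧
      (F = t ∨ b ∉ (bfs n ((aug n a b)^[t] X) a).map Prod.fst) := by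
  induction t with
  | zero => exact ⟨0, fun A => by simp, Or.inl rfl⟩
  | succ t ih =>
    obtain ⟨F, h1, h2⟩ := ih
    rw [Function.iterate_succ_apply']
    generalize (aug n a b)^[t] X = Y at h1 h2 ⊢
    rcases hf : (bfs n Y a).find? fun r => decide (r.1 = b) with _ | r
    · have e : aug n a b Y = Y := by
        unfold aug
        rw [hf]
        rfl
      rw [e]
      refine ⟨F, h1, Or.inr fun hb => ?_⟩
      obtain ⟨r, hr, hrb⟩ := List.mem_map.1 hb
      exact List.find?_eq_none.1 hf r hr (by simpa using hrb)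
    · have e : aug n a b Y = r.2 := by
        unfold aug
        rw [hf]
        rfl
      have hr := List.mem_of_find?_eq_some hf
      have hrb : r.1 = b := by simpa using List.find?_some hf
      have hF : F = t := h2.resolve_right fun hb => hb (hrb ▸ List.mem_map_of_mem hr)
      rw [e]
      refine ⟨F + 1, fun A => ?_, Or.inl (by omega)⟩
      have h3 := (bfs_inv ha Y).cut r hr A
      have h4 := h1 A
      rw [hrb] at h3
      split_ifs at h3 h4 ⊢ <;> omega

/-- `F ≤ cut S < τ`, so `b` is not reached; the reached set `Q` has residual cut `0`, so `cut Q = F` and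
`cut S = F`; then the residual cut of `S` is `0` and `BI.cut` gives `Q ⊆ S`; finally `S.card ≤ Q.card`. -/
theorem mincut_eq {S : Finset ℕ} (hS : S ⊆ range n) (hτ : cutF n (ent X) S < τ) (ha : a ∈ S)
    (hb : b ∉ S) (hmin : ∀ A ⊆ range n, a ∈ A → b ∉ A → cutF n (ent X) S ≤ cutF n (ent X) A ∧
      (cutF n (ent X) A = cutF n (ent X) S → S.card ≤ A.card)) :
    toF n (mincut n τ X a b) = S := by
  have han : a < n := mem_range.1 (hS ha)
  obtain ⟨F, h1, h2⟩ := aug_iter (b := b) han X τ
  unfold mincut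
  generalize (aug n a b)^[τ] X = Y at h1 h2 ⊢
  have hB := bfs_inv han Y
  have e1 := h1 S
  rw [if_pos ha, if_neg hb] at e1
  have hbQ : b ∉ (bfs n Y a).map Prod.fst := h2.resolve_left (by omega)
  have haQ : a ∈ toF n ((bfs n Y a).map Prod.fst) := mem_toF.2 ⟨han, hB.start⟩
  have hbQ' : b ∉ toF n ((bfs n Y a).map Prod.fst) := fun h => hbQ (mem_toF.1 h).2
  have h0 : cutF n (ent Y) (toF n ((bfs n Y a).map Prod.fst)) = 0 := by
    refine sum_eq_zero fun u _ => sum_eq_zero fun v hv => ?_
    split_ifs with h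
    · exact bfs_closed han Y (mem_toF.1 h.1).2 (mem_range.1 hv)
        fun hv' => h.2 (mem_toF.2 ⟨mem_range.1 hv, hv'⟩)
    · rfl
  have e2 := h1 (toF n ((bfs n Y a).map Prod.fst))
  rw [if_pos haQ, if_neg hbQ', h0] at e2
  obtain ⟨m1, m2⟩ := hmin _ (toF_subset n _) haQ hbQ'
  refine eq_of_subset_of_card_le (fun u hu => ?_) (m2 (by omega))
  obtain ⟨r, hr, rfl⟩ := List.mem_map.1 (mem_toF.1 hu).2
  have h3 := hB.cut r hr S
  rw [if_pos ha] at h3
  by_contra hrS
  rw [if_neg hrS] at h3
  omega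

theorem oddCut_some {S : List ℕ} (h : oddCut n τ X = some S) :
    Odd (toF n S).card ∧ cutF n (ent X) (toF n S) < τ := by
  have h1 := List.find?_some h
  rw [decide_eq_true_eq, ← card_toF, cut_eq] at h1
  exact ⟨Nat.odd_iff.2 h1.1, h1.2⟩

theorem oddCut_none (hn : Even n) (h : oddCut n τ X = none) :
    ∀ A ⊆ range n, Odd A.card → τ ≤ cutF n (ent X) A := by
  intro A hA ho
  by_contra hlt
  obtain ⟨S, hS, hSo, hSτ, a, ha, b, hb, hbS, hmin⟩ := exists_pair hn (ent X) hA ho (not_le.1 hlt)
  have e := mincut_eq hS hSτ ha hbS hmin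
  refine List.find?_eq_none.1 h (mincut n τ X a b) (List.mem_flatMap.2
    ⟨a, List.mem_range.2 (mem_range.1 (hS ha)), List.mem_map.2 ⟨b, List.mem_range.2 hb, rfl⟩⟩) ?_
  rw [decide_eq_true_eq, ← card_toF, cut_eq, e]
  exact ⟨Nat.odd_iff.1 hSo, hSτ⟩

end Crest.Agent.R304C
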