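import Crest.Agent.R304C.Defs

/-!
# Row 304 C: minimum odd cuts are minimal minimum `a`-`b` cuts (Goemans-Ramakrishnan)
-/

set_option autoImplicit false

namespace Crest.Agent.R304C

open Finset Crest.Matchings

/-- Otherwise pick for every `a ∈ T` a minimiser `A a` of `g` among the subsets of `T` containing `a`;
`g (A a) < g T`.  Call `B ⊆ T` good if `B = T` or `g B < g T`.  For good `B`, `g (B ∩ A a) < g T`
(submodularity, `g (B ∪ A a) ≥ g (A a)`), so `B ∩ A a` is good and even.  Induction on `I : Finset α`, `I ⊆ T`: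
`(B ∩ I.biUnion A).card` is even for all good `B` (`card_union_add_card_inter`).  Take `B = I = T`. -/
theorem gr_parity {α : Type*} [DecidableEq α] (g : Finset α → ℕ)
    (hsub : ∀ A B, g (A ∪ B) + g (A ∩ B) ≤ g A + g B) (T : Finset α) (hT : Odd T.card)
    (hmin : ∀ A ⊆ T, Odd A.card → g T ≤ g A) : ∃ a ∈ T, ∀ A ⊆ T, a ∈ A → g T ≤ g A := by
  by_contra hcon
  push Not at hcon
  have hex : ∀ a, ∃ A : Finset α, a ∈ T →
      A ⊆ T ∧ a ∈ A ∧ g A < g T ∧ ∀ B ⊆ T, a ∈ B → g A ≤ g B := by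
    intro a
    by_cases ha : a ∈ T
    · obtain ⟨A₀, hA₀, haA₀, hlt⟩ := hcon a ha
      obtain ⟨A, hA, hAmin⟩ := exists_min_image (T.powerset.filter fun B => a ∈ B) g
        ⟨A₀, mem_filter.2 ⟨mem_powerset.2 hA₀, haA₀⟩⟩
      obtain ⟨hA1, hA2⟩ := mem_filter.1 hA
      exact ⟨A, fun _ => ⟨mem_powerset.1 hA1, hA2,
        (hAmin A₀ (mem_filter.2 ⟨mem_powerset.2 hA₀, haA₀⟩)).trans_lt hlt,
        fun B hB haB => hAmin B (mem_filter.2 ⟨mem_powerset.2 hB, haB⟩)⟩⟩
    · exact ⟨∅, fun h => absurd h ha⟩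
  choose A hA using hex
  have hlt : ∀ B ⊆ T, (B = T ∨ g B < g T) → ∀ a ∈ T, g (B ∩ A a) < g T := by
    intro B hB hgood a ha
    obtain ⟨h1, h2, h3, h4⟩ := hA a ha
    rcases hgood with rfl | hgood
    · rwa [inter_eq_right.2 h1]
    · have h5 := hsub B (A a)
      have h6 := h4 (B ∪ A a) (union_subset hB h1) (mem_union_right _ h2)
      omega
  have key : ∀ I : Finset α, I ⊆ T → ∀ B ⊆ T, (B = T ∨ g B < g T) →
      Even (B ∩ I.biUnion A).card := by
    intro I
    induction I using Finset.induction_on with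
    | empty => intro _ B _ _; simp
    | insert a I _ ih =>
      intro hI B hB hgood
      have haT : a ∈ T := hI (mem_insert_self _ _)
      have hIT : I ⊆ T := (subset_insert _ _).trans hI
      have hsubT : B ∩ A a ⊆ T := inter_subset_left.trans hB
      have h1 := hlt B hB hgood a haT
      have h2 : Even (B ∩ A a).card := by
        by_contra h
        exact absurd (hmin _ hsubT (Nat.not_even_iff_odd.1 h)) (not_le.2 h1)
      have h3 := ih hIT B hB hgood
      have h4 := ih hIT (B ∩ A a) hsubT (Or.inr h1)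
      have h5 := card_union_add_card_inter (B ∩ A a) (B ∩ I.biUnion A)
      have h6 : B ∩ A a ∩ (B ∩ I.biUnion A) = B ∩ A a ∩ I.biUnion A := by
        ext x
        simp only [mem_inter]
        tauto
      rw [h6] at h5
      rw [biUnion_insert, inter_union_distrib_left]
      rw [Nat.even_iff] at *
      omega
  have h1 := key T Subset.rfl T Subset.rfl (Or.inl rfl)
  have h2 : T ∩ T.biUnion A = T :=
    inter_eq_left.2 fun a ha => mem_biUnion.2 ⟨a, ha, (hA a ha).2.1⟩
  rw [h2] at h1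
  exact (Nat.not_even_iff_odd.2 hT) h1

theorem cutF_submod (n : ℕ) (f : ℕ → ℕ → ℕ) (A B : Finset ℕ) :
    cutF n f (A ∪ B) + cutF n f (A ∩ B) ≤ cutF n f A + cutF n f B := by
  unfold cutF
  simp only [← sum_add_distrib]
  refine sum_le_sum fun u _ => sum_le_sum fun v _ => ?_
  by_cases h1 : u ∈ A <;> by_cases h2 : u ∈ B <;> by_cases h3 : v ∈ A <;> by_cases h4 : v ∈ B <;>
    simp [h1, h2, h3, h4]

/-- Let `S` minimise `g A = (n + 1) * cutF n f A + A.card` (submodular) among the odd subsets of `range n`.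
`gr_parity` for `g`, `S` gives `a`; for `A ↦ g (range n \ A)` and `range n \ S` it gives `b`;
`g A ≥ g (A ∩ S) + g (A ∪ S) - g S ≥ g S`. -/
theorem exists_pair {n : ℕ} (hn : Even n) (f : ℕ → ℕ → ℕ) {τ : ℕ} {A₀ : Finset ℕ}
    (hA : A₀ ⊆ range n) (ho : Odd A₀.card) (hτ : cutF n f A₀ < τ) :
    ∃ S ⊆ range n, Odd S.card ∧ cutF n f S < τ ∧ ∃ a ∈ S, ∃ b < n, b ∉ S ∧
      ∀ A ⊆ range n, a ∈ A → b ∉ A →
        cutF n f S ≤ cutF n f A ∧ (cutF n f A = cutF n f S → S.card ≤ A.card) := by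
  obtain ⟨g, hg⟩ : ∃ g : Finset ℕ → ℕ, ∀ A, g A = (n + 1) * cutF n f A + A.card := ⟨_, fun _ => rfl⟩
  have hsub : ∀ A B, g (A ∪ B) + g (A ∩ B) ≤ g A + g B := by
    intro A B
    have h1 := Nat.mul_le_mul_left (n + 1) (cutF_submod n f A B)
    have h2 := card_union_add_card_inter A B
    rw [mul_add, mul_add] at h1
    simp only [hg]
    omega
  have hcmp : ∀ S A : Finset ℕ, A ⊆ range n → g S ≤ g A →
      cutF n f S ≤ cutF n f A ∧ (cutF n f A = cutF n f S → S.card ≤ A.card) := by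
    intro S A hA h
    have h1 : A.card ≤ n := by simpa using card_le_card hA
    rw [hg, hg] at h
    refine ⟨?_, fun e => ?_⟩
    · by_contra hc
      have h2 := Nat.mul_le_mul_left (n + 1) (Nat.succ_le_of_lt (not_le.1 hc))
      rw [Nat.mul_succ] at h2
      omega
    · rw [e] at h
      omega
  obtain ⟨S, hS, hSmin⟩ := exists_min_image ((range n).powerset.filter fun B => Odd B.card) g
    ⟨A₀, mem_filter.2 ⟨mem_powerset.2 hA, ho⟩⟩
  obtain ⟨hS1, hS2⟩ := mem_filter.1 hS
  replace hS1 := mem_powerset.1 hS1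
  have hSmin' : ∀ A ⊆ range n, Odd A.card → g S ≤ g A := fun A h1 h2 =>
    hSmin A (mem_filter.2 ⟨mem_powerset.2 h1, h2⟩)
  have hodd : ∀ A ⊆ range n, Odd A.card → Odd (range n \ A).card := by
    intro A h1 h2
    have h3 := card_sdiff_add_card_eq_card h1
    rw [card_range] at h3
    rw [Nat.odd_iff] at *
    rw [Nat.even_iff] at hn
    omega
  obtain ⟨a, ha, hamin⟩ := gr_parity g hsub S hS2 fun A h1 h2 => hSmin' A (h1.trans hS1) h2
  have hSS : range n \ (range n \ S) = S := Finset.sdiff_sdiff_eq_self hS1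
  obtain ⟨b, hb, hbmin⟩ := gr_parity (fun A => g (range n \ A)) (fun A B => by
      rw [sdiff_union_distrib, sdiff_inter_distrib_right, add_comm]
      exact hsub _ _) (range n \ S) (hodd S hS1 hS2) (fun A h1 h2 => by
      simp only [hSS]
      exact hSmin' _ sdiff_subset (hodd A (h1.trans sdiff_subset) h2))
  obtain ⟨hb1, hb2⟩ := mem_sdiff.1 hb
  refine ⟨S, hS1, hS2, (hcmp S A₀ hA (hSmin' A₀ hA ho)).1.trans_lt hτ, a, ha, b, mem_range.1 hb1, hb2,
    fun A hA haA hbA => hcmp S A hA ?_⟩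
  have h1 := hamin (A ∩ S) inter_subset_right (mem_inter.2 ⟨haA, ha⟩)
  have h2 := hbmin (range n \ (A ∪ S)) (sdiff_subset_sdiff Subset.rfl subset_union_right)
    (mem_sdiff.2 ⟨hb1, fun h => (mem_union.1 h).elim hbA hb2⟩)
  simp only [hSS, Finset.sdiff_sdiff_eq_self (union_subset hA hS1)] at h2
  have h3 := hsub A S
  omega

end Crest.Agent.R304C
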