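import Crest.Agent.R304C.PM
import Crest.Agent.R304C.Ext

/-!
# Row 304 C: points of the polytope bound the partition function from below
-/

set_option autoImplicit false

namespace Crest.Agent.R304C

open Finset Crest.Matchings

/-- Gibbs variational principle (`log t ≤ t - 1`). -/
theorem gibbs_var {ι : Type*} (s : Finset ι) (q W : ι → ℝ) (hq : ∀ i ∈ s, 0 ≤ q i)
    (h1 : ∑ i ∈ s, q i = 1) (hW : ∀ i ∈ s, 0 < W i) :
    ∑ i ∈ s, (Real.negMulLog (q i) + q i * Real.log (W i)) ≤ Real.log (∑ i ∈ s, W i) := by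
  have hne : s.Nonempty := by
    rcases s.eq_empty_or_nonempty with rfl | h
    · simp at h1
    · exact h
  set Z := ∑ i ∈ s, W i with hZ
  have hZ0 : 0 < Z := sum_pos hW hne
  have key : ∀ i ∈ s, Real.negMulLog (q i) + q i * Real.log (W i) ≤
      q i * Real.log Z + (W i / Z - q i) := by
    intro i hi
    rcases (hq i hi).eq_or_lt with h | h
    · rw [← h]
      have := (div_pos (hW i hi) hZ0).le
      simpa using this
    · have h2 := Real.log_le_sub_one_of_pos (div_pos (div_pos (hW i hi) hZ0) h)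
      rw [Real.log_div (div_pos (hW i hi) hZ0).ne' h.ne', Real.log_div (hW i hi).ne' hZ0.ne'] at h2
      have h3 := mul_le_mul_of_nonneg_left h2 h.le
      have h4 : q i * (W i / Z / q i - 1) = W i / Z - q i := by field_simp
      rw [h4] at h3
      unfold Real.negMulLog
      nlinarith
  refine (sum_le_sum key).trans (le_of_eq ?_)
  rw [sum_add_distrib, sum_sub_distrib, ← sum_mul, ← sum_div, h1, ← hZ, div_self hZ0.ne']
  ring

/-- `edmonds`, `entropy_ge`, `gibbs_var` over the perfect matchings; `negMulLog (1 - t) ≤ t`, and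
`∑ e, x e = m` (sum the degrees). -/
theorem lb_ends {m k : ℕ} (hm : 1 ≤ m) (ends : Fin k → Fin (2 * m) × Fin (2 * m))
    (hends : ∀ e, (ends e).1 ≠ (ends e).2) (x : Fin k → ℝ) (h0 : ∀ e, 0 ≤ x e)
    (hdeg : ∀ w, ∑ e ∈ univ.filter fun e => (ends e).1 = w ∨ (ends e).2 = w, x e = 1)
    (hodd : ∀ S : Finset (Fin (2 * m)), Odd S.card →
      1 ≤ ∑ e ∈ univ.filter fun e => ¬((ends e).1 ∈ S ↔ (ends e).2 ∈ S), x e)
    (W : Fin k → ℝ) (hW : ∀ e, 0 < W e) (s : Finset (Finset (Fin k)))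
    (hs : ∀ M, M ∈ s ↔ IsPerfectMatching ends M) :
    s.Nonempty ∧ ∑ e, (Real.negMulLog (x e) + x e * Real.log (W e)) ≤
      Real.log (∑ M ∈ s, ∏ e ∈ M, W e) + 2 * m := by
  classical
  obtain ⟨p, hp, hpx⟩ := edmonds ends hends x h0 hdeg hodd
  obtain ⟨q, hq, hqp, hent⟩ := entropy_ge m hm k ends hends p hp
  simp only [hpx] at hqp hent
  have hq0 : ∀ M, M ∉ s → q M = 0 := fun M hM => by
    by_contra h
    exact hM ((hs M).2 (hq.2.2 M h))
  have hsum : ∀ g : Finset (Fin k) → ℝ, (∀ M, q M = 0 → g M = 0) → ∑ M ∈ s, g M = ∑ M, g M :=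
    fun g hg => sum_subset (subset_univ s) fun M _ hM => hg M (hq0 M hM)
  have h1 : ∑ M ∈ s, q M = 1 := by rw [hsum q fun _ h => h, hq.2.1]
  have hne : s.Nonempty := by
    rcases s.eq_empty_or_nonempty with h | h
    · rw [h] at h1; simp at h1
    · exact h
  refine ⟨hne, ?_⟩
  have hg := gibbs_var s q (fun M => ∏ e ∈ M, W e) (fun M _ => hq.1 M) h1
    (fun M _ => prod_pos fun e _ => hW e)
  rw [hsum _ (fun M h => by simp [h]), sum_add_distrib] at hg
  have h2 : ∑ M : Finset (Fin k), q M * Real.log (∏ e ∈ M, W e) = ∑ e, x e * Real.log (W e) := by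
    have : ∀ M : Finset (Fin k), q M * Real.log (∏ e ∈ M, W e) =
        ∑ e, if e ∈ M then q M * Real.log (W e) else 0 := by
      intro M
      rw [Real.log_prod fun e _ => (hW e).ne', mul_sum, ← sum_filter]
      congr 1
      ext e
      simp
    simp only [this]
    rw [sum_comm]
    refine sum_congr rfl fun e _ => ?_
    rw [← hqp e, marginal, sum_mul, sum_filter]
  have hx1 : ∀ e, x e ≤ 1 := by
    intro e
    rw [← hdeg (ends e).1]
    exact single_le_sum (f := x) (fun i _ => h0 i) (by simp)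
  have hxm : ∑ e, x e = m := by
    have h3 : ∑ w : Fin (2 * m), ∑ e ∈ univ.filter fun e => (ends e).1 = w ∨ (ends e).2 = w, x e =
        2 * m := by
      simp [hdeg]
    have h4 : ∑ w : Fin (2 * m), ∑ e ∈ univ.filter fun e => (ends e).1 = w ∨ (ends e).2 = w, x e =
        ∑ e, 2 * x e := by
      simp only [sum_filter]
      rw [sum_comm]
      refine sum_congr rfl fun e _ => ?_
      rw [← sum_filter, sum_const]
      have : (univ.filter fun w => (ends e).1 = w ∨ (ends e).2 = w) = {(ends e).1, (ends e).2} := by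
        ext w
        simp [eq_comm]
      rw [this, card_pair (hends e)]
      simp
    rw [h4, ← mul_sum] at h3
    linarith
  have hB0 : 0 ≤ ∑ e, Real.negMulLog (1 - x e) :=
    sum_nonneg fun e _ => Real.negMulLog_nonneg (by linarith [hx1 e]) (by linarith [h0 e])
  have hB1 : ∑ e, Real.negMulLog (1 - x e) ≤ m := by
    rw [← hxm]
    refine sum_le_sum fun e _ => ?_
    have := Real.negMulLog_le_one_sub_self (x := 1 - x e) (by linarith [hx1 e])
    linarith
  have hm0 : (0 : ℝ) ≤ 2 / m := by positivity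
  rw [h2] at hg
  rw [sum_add_distrib]
  unfold lawEntropy at hent
  nlinarith

/-- `ends` = an enumeration of `ltPairs n` (`Finset.equivFin`), `M ↦ M.map ends` is a bijection onto
`PMs n`; `deg_pairs`, `cutF_pairs` (with `A = S.map Fin.valEmbedding`), `sum_pairs`. -/
theorem gibbs_lb {n : ℕ} (hn : Even n) (h0 : 0 < n) {ℓ : ℕ → ℕ → ℕ} (hℓ : Sym n ℓ) {x : ℕ → ℕ → ℝ}
    (hx : InP n x) :
    0 < Zf n ℓ ∧ ∑ u ∈ range n, ∑ v ∈ range n, (Real.negMulLog (x u v) + x u v * (ℓ u v * Real.log 2)) ≤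
      2 * Real.log (Zf n ℓ) + 2 * n := by
  classical
  obtain ⟨m, rfl⟩ : ∃ m, n = 2 * m := ⟨n / 2, by obtain ⟨r, hr⟩ := hn; omega⟩
  have hm : 1 ≤ m := by omega
  set k := (ltPairs (2 * m)).card with hk
  let ε : Fin k ≃ ltPairs (2 * m) := (ltPairs (2 * m)).equivFin.symm
  let ends : Fin k ↪ Fin (2 * m) × Fin (2 * m) :=
    ⟨fun e => (ε e : Fin (2 * m) × Fin (2 * m)), Subtype.val_injective.comp ε.injective⟩
  have hmem : ∀ e, ends e ∈ ltPairs (2 * m) := fun e => (ε e).2
  have hlt : ∀ e, (ends e).1 < (ends e).2 := fun e => (mem_filter.1 (hmem e)).2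
  have hsurj : ∀ q ∈ ltPairs (2 * m), ∃ e, ends e = q := fun q hq =>
    ⟨ε.symm ⟨q, hq⟩, by
      show ((ε (ε.symm ⟨q, hq⟩) : ltPairs (2 * m)) : Fin (2 * m) × Fin (2 * m)) = q
      rw [Equiv.apply_symm_apply]⟩
  have hsum : ∀ g : Fin (2 * m) × Fin (2 * m) → ℝ, ∑ e, g (ends e) = ∑ q ∈ ltPairs (2 * m), g q := by
    intro g
    rw [← sum_coe_sort (ltPairs (2 * m)) g]
    exact Equiv.sum_comp ε fun q => g q
  have hsumf : ∀ (P : Fin (2 * m) × Fin (2 * m) → Prop) [DecidablePred P]
      (g : Fin (2 * m) × Fin (2 * m) → ℝ),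
      ∑ e ∈ univ.filter fun e => P (ends e), g (ends e) = ∑ q ∈ (ltPairs (2 * m)).filter P, g q := by
    intro P _ g
    rw [sum_filter, sum_filter]
    exact hsum fun q => if P q then g q else 0
  obtain ⟨hne, hle⟩ := lb_ends hm ends (fun e => (hlt e).ne) (fun e => x (ends e).1 (ends e).2)
    (fun e => hx.nonneg _ (ends e).1.2 _ (ends e).2.2)
    (fun w => by
      rw [hsumf (fun q => q.1 = w ∨ q.2 = w) fun q => x q.1 q.2,
        ← deg_pairs x hx.sym w (hx.diag w w.2), hx.deg w w.2])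
    (fun S hS => by
      have h1 := hx.odd (S.map Fin.valEmbedding) (fun a ha => by
        obtain ⟨b, -, rfl⟩ := mem_map.1 ha
        exact mem_range.2 b.2) (by rwa [card_map])
      rw [cutF_pairs x hx.sym] at h1
      rw [hsumf (fun q => ¬(q.1 ∈ S ↔ q.2 ∈ S)) fun q => x q.1 q.2]
      refine h1.trans (le_of_eq (sum_congr ?_ fun _ _ => rfl))
      refine filter_congr fun q _ => ?_
      have : ∀ a : Fin (2 * m), (a : ℕ) ∈ S.map Fin.valEmbedding ↔ a ∈ S := fun a =>
        mem_map' Fin.valEmbedding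
      rw [this, this])
    (fun e => (2 : ℝ) ^ ℓ (ends e).1 (ends e).2) (fun e => by positivity)
    (univ.filter fun M => IsPerfectMatching ends M) (fun M => by simp)
  have hZ : ∑ M ∈ univ.filter fun M => IsPerfectMatching ends M,
      ∏ e ∈ M, (2 : ℝ) ^ ℓ (ends e).1 (ends e).2 = (Zf (2 * m) ℓ : ℝ) := by
    have hpm : ∀ M : Finset (Fin k), IsPerfectMatching ends M ↔ M.map ends ∈ PMs (2 * m) := by
      intro M
      rw [mem_PMs]
      simp only [filter_map, card_map]
      refine ⟨fun h => ⟨fun q hq => ?_, h⟩, fun h => h.2⟩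
      obtain ⟨e, -, rfl⟩ := mem_map.1 hq
      exact hlt e
    unfold Zf
    push_cast
    refine sum_nbij (fun M => M.map ends) (fun M hM => (hpm M).1 (mem_filter.1 hM).2)
      (fun M _ M' _ h => map_injective ends h) (fun M' hM' => ?_) fun M _ => ?_
    · have hM : (univ.filter fun e => ends e ∈ M').map ends = M' := by
        ext q
        simp only [mem_map, mem_filter, mem_univ, true_and]
        refine ⟨fun ⟨e, he, h⟩ => h ▸ he, fun hq => ?_⟩
        obtain ⟨e, rfl⟩ := hsurj q (mem_filter.2 ⟨mem_univ _, (mem_PMs.1 hM').1 q hq⟩)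
        exact ⟨e, hq, rfl⟩
      refine ⟨univ.filter fun e => ends e ∈ M', ?_, hM⟩
      refine mem_coe.2 (mem_filter.2 ⟨mem_univ _, (hpm _).2 ?_⟩)
      rw [hM]
      exact hM'
    · rw [prod_map]
  have hpos : (0 : ℝ) < Zf (2 * m) ℓ := by
    rw [← hZ]
    exact sum_pos (fun M _ => prod_pos fun e _ => by positivity) hne
  refine ⟨by exact_mod_cast hpos, ?_⟩
  rw [hZ] at hle
  rw [sum_pairs (fun u v => Real.negMulLog (x u v) + x u v * (ℓ u v * Real.log 2))
    (fun u hu v hv => by simp only [hx.sym u hu v hv, hℓ u hu v hv])]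
  have hd : ∑ u ∈ range (2 * m), (Real.negMulLog (x u u) + x u u * (ℓ u u * Real.log 2)) = 0 :=
    sum_eq_zero fun u hu => by simp [hx.diag u (mem_range.1 hu)]
  rw [hd, ← hsum fun q => Real.negMulLog (x q.1 q.2) + x q.1 q.2 * (ℓ q.1 q.2 * Real.log 2)]
  simp only [Real.log_pow] at hle
  push_cast
  linarith

end Crest.Agent.R304C
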