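import Crest.Agent.R304C.Defs

/-!
# Row 304 C: basic facts on perfect matchings of `K_n`
-/

set_option autoImplicit false

namespace Crest.Agent.R304C

open Finset Crest.Matchings

variable {n : ℕ}

theorem PM_mem {q : Fin n × Fin n} : q ∈ ltPairs n ↔ q.1 < q.2 := by
  simp [ltPairs]

theorem PM_sum (G : ℕ → ℕ → ℝ) : ∑ u ∈ range n, ∑ v ∈ range n, G u v =
    ∑ q ∈ ltPairs n, (G q.1 q.2 + G q.2 q.1) + ∑ u ∈ range n, G u u := by
  simp only [sum_range, ltPairs, sum_filter, Fintype.sum_prod_type]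
  have e : ∀ u v : Fin n, G u v = (if u < v then G u v else 0) + (if v < u then G u v else 0) +
      if u = v then G u v else 0 := by
    intro u v
    rcases lt_trichotomy u v with h | h | h
    · simp [h, h.not_gt, h.ne]
    · simp [h]
    · simp [h, h.not_gt, h.ne']
  rw [sum_congr rfl fun u _ => sum_congr rfl fun v _ => e u v]
  simp only [sum_add_distrib, sum_ite_eq, mem_univ, if_true]
  congr 1
  rw [sum_comm (f := fun u v : Fin n => if v < u then G u v else 0), ← sum_add_distrib]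
  refine sum_congr rfl fun u _ => ?_
  rw [← sum_add_distrib]
  refine sum_congr rfl fun v _ => ?_
  split_ifs <;> simp

theorem mem_PMs {M : Finset (Fin n × Fin n)} : M ∈ PMs n ↔ (∀ q ∈ M, q.1 < q.2) ∧
    ∀ v : Fin n, (M.filter fun q => q.1 = v ∨ q.2 = v).card = 1 := by
  simp only [PMs, mem_filter, mem_powerset, subset_iff, PM_mem]

/-- double counting: `∑_{v ∈ A} 1 = ∑_{q ∈ M} ([q.1 ∈ A] + [q.2 ∈ A])`. -/
theorem card_eq_sum_of_mem_PMs {M : Finset (Fin n × Fin n)} (hM : M ∈ PMs n) (A : Finset (Fin n)) :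
    A.card = ∑ q ∈ M, ((if q.1 ∈ A then 1 else 0) + if q.2 ∈ A then 1 else 0) := by
  obtain ⟨h1, h2⟩ := mem_PMs.1 hM
  rw [card_eq_sum_ones, sum_congr rfl fun v _ => (h2 v).symm]
  simp only [card_filter]
  rw [sum_comm]
  refine sum_congr rfl fun q hq => ?_
  rw [← sum_ite_eq A q.1 fun _ => 1, ← sum_ite_eq A q.2 fun _ => 1, ← sum_add_distrib]
  refine sum_congr rfl fun v _ => ?_
  have := (h1 q hq).ne
  by_cases ha : q.1 = v <;> by_cases hb : q.2 = v <;> simp [ha, hb]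
  exact this (ha.trans hb.symm)

theorem card_of_mem_PMs {M : Finset (Fin n × Fin n)} (hM : M ∈ PMs n) : 2 * M.card = n := by
  have := card_eq_sum_of_mem_PMs hM univ
  simp only [mem_univ, if_true, card_univ, Fintype.card_fin, sum_const, smul_eq_mul] at this
  omega

theorem exists_cross {M : Finset (Fin n × Fin n)} (hM : M ∈ PMs n) {A : Finset ℕ} (hA : A ⊆ range n)
    (ho : Odd A.card) : ∃ q ∈ M, ¬((q.1 : ℕ) ∈ A ↔ (q.2 : ℕ) ∈ A) := by
  by_contra h
  push Not at h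
  have h1 := card_eq_sum_of_mem_PMs hM (univ.filter fun v : Fin n => (v : ℕ) ∈ A)
  have h2 : (univ.filter fun v : Fin n => (v : ℕ) ∈ A).card = A.card := by
    refine card_bij (fun v _ => (v : ℕ)) (fun v hv => (mem_filter.1 hv).2)
      (fun v _ w _ hvw => Fin.ext hvw) fun u hu => ?_
    exact ⟨⟨u, mem_range.1 (hA hu)⟩, mem_filter.2 ⟨mem_univ _, hu⟩, rfl⟩
  rw [← h2, h1, ← Nat.not_even_iff_odd] at ho
  refine ho (even_sum _ fun q hq => ?_)
  simp only [mem_filter, mem_univ, true_and, h q hq]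
  exact ⟨_, rfl⟩

theorem card_PMs_le (n : ℕ) : (PMs n).card ≤ 2 ^ n ^ 2 := by
  refine (card_filter_le _ _).trans ?_
  rw [card_powerset]
  refine Nat.pow_le_pow_right two_pos ((card_le_univ _).trans_eq ?_)
  simp [sq]

theorem Zf_le {L : ℕ} {ℓ : ℕ → ℕ → ℕ} (h : ∀ u < n, ∀ v < n, ℓ u v ≤ L) :
    Zf n ℓ ≤ 2 ^ ((L + 1) * n ^ 2) := by
  have h1 : ∀ M ∈ PMs n, ∏ q ∈ M, 2 ^ ℓ q.1 q.2 ≤ 2 ^ (L * n ^ 2) := by
    intro M _
    refine (prod_le_pow_card M _ (2 ^ L) fun q _ =>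
      Nat.pow_le_pow_right two_pos (h _ q.1.2 _ q.2.2)).trans ?_
    rw [← pow_mul]
    refine Nat.pow_le_pow_right two_pos (Nat.mul_le_mul_left _ ((card_le_univ _).trans_eq ?_))
    simp [sq]
  refine (sum_le_card_nsmul _ _ _ h1).trans ?_
  rw [smul_eq_mul, add_mul, one_mul, pow_add, mul_comm]
  exact Nat.mul_le_mul_left _ (card_PMs_le n)

theorem Zf_congr {ℓ ℓ' : ℕ → ℕ → ℕ} (h : ∀ u < n, ∀ v < n, ℓ u v = ℓ' u v) : Zf n ℓ = Zf n ℓ' := by
  exact sum_congr rfl fun M _ => prod_congr rfl fun q _ => by rw [h _ q.1.2 _ q.2.2]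

/-- ordered pairs versus pairs `i < j`. -/
theorem sum_pairs (F : ℕ → ℕ → ℝ) (hs : Sym n F) :
    ∑ u ∈ range n, ∑ v ∈ range n, F u v =
      2 * ∑ q ∈ ltPairs n, F q.1 q.2 + ∑ u ∈ range n, F u u := by
  rw [PM_sum, mul_sum]
  congr 1
  exact sum_congr rfl fun q _ => by rw [hs _ q.2.2 _ q.1.2, two_mul]

/-- the degree of a vertex as a sum over pairs `i < j`. -/
theorem deg_pairs (F : ℕ → ℕ → ℝ) (hs : Sym n F) (w : Fin n) (h0 : F w w = 0) :
    ∑ v ∈ range n, F w v = ∑ q ∈ (ltPairs n).filter fun q => q.1 = w ∨ q.2 = w, F q.1 q.2 := by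
  have h := PM_sum (n := n) fun u v => if u = w then F u v else 0
  rw [sum_comm] at h
  simp only [sum_ite_eq', mem_range, w.2, if_true, h0, add_zero] at h
  rw [h, sum_filter]
  refine sum_congr rfl fun q hq => ?_
  have := (PM_mem.1 hq).ne
  simp only [Fin.val_inj]
  by_cases ha : q.1 = w <;> by_cases hb : q.2 = w
  · exact absurd (ha.trans hb.symm) this
  · simp [ha, hb]
  · simp [ha, hb, hs _ w.2 _ q.1.2]
  · simp [ha, hb]

/-- a cut as a sum over pairs `i < j`. -/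
theorem cutF_pairs (F : ℕ → ℕ → ℝ) (hs : Sym n F) (A : Finset ℕ) :
    cutF n F A = ∑ q ∈ (ltPairs n).filter fun q => ¬((q.1 : ℕ) ∈ A ↔ (q.2 : ℕ) ∈ A), F q.1 q.2 := by
  unfold cutF
  rw [PM_sum, sum_filter]
  simp only [and_not_self, if_false, sum_const_zero, add_zero]
  refine sum_congr rfl fun q _ => ?_
  by_cases ha : (q.1 : ℕ) ∈ A <;> by_cases hb : (q.2 : ℕ) ∈ A <;> simp [ha, hb, hs _ q.2.2 _ q.1.2]

theorem mult_zero (w : Fin 0 → Fin 0 → ℕ) : multNumPerfectMatchings w = 1 := by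
  have h : PMs 0 = {∅} := by
    ext M
    rw [mem_PMs, mem_singleton]
    simp only [IsEmpty.forall_iff, and_true]
    refine ⟨fun _ => eq_empty_of_isEmpty M, fun _ => by simp⟩
  rw [mult_eq, h]
  simp

/-- a matching with a nonzero product consists of `n / 2` pairs of positive multiplicity. -/
theorem mult_eq_zero (w : Fin n → Fin n → ℕ) (h : n % 2 = 1 ∨ 2 * (posPairs n w).length < n) :
    multNumPerfectMatchings w = 0 := by
  rw [mult_eq]
  refine sum_eq_zero fun M hM => ?_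
  by_contra h0
  have h1 := card_of_mem_PMs hM
  have h2 : M ⊆ (posPairs n w).toFinset := by
    intro q hq
    have h3 : w q.1 q.2 ≠ 0 := fun h4 => h0 (prod_eq_zero hq h4)
    rw [List.mem_toFinset, posPairs, List.mem_filter]
    refine ⟨?_, decide_eq_true ⟨(mem_PMs.1 hM).1 q hq, Nat.pos_of_ne_zero h3⟩⟩
    exact List.pair_mem_product.2 ⟨List.mem_finRange _, List.mem_finRange _⟩
  have h3 := (card_le_card h2).trans (List.toFinset_card_le _)
  omega

end Crest.Agent.R304C
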