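import Crest.Agent.R304C.Defs
import Crest.Agent.Lib.PolyTime.More

/-!
# Row 304 C: the separation oracle is polynomial time
-/

set_option autoImplicit false

namespace Crest.Agent.R304C

open Finset Crest.Matchings Crest.Agent.Lib.PolyTime

/-- shape and entry bound. -/
def Ok (n B : ℕ) (M : Mx) : Prop := M.length ≤ n ∧ ∀ r ∈ M, r.length ≤ n ∧ ∀ x ∈ r, x ≤ B

theorem Ok.mono {n n' B B' : ℕ} {M : Mx} (h : Ok n B M) (hn : n ≤ n') (hB : B ≤ B') : Ok n' B' M := by
  exact ⟨h.1.trans hn, fun r hr => ⟨(h.2 r hr).1.trans hn, fun x hx => ((h.2 r hr).2 x hx).trans hB⟩⟩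

theorem Ok.ent_le {n B : ℕ} {M : Mx} (h : Ok n B M) (u v : ℕ) : ent M u v ≤ B := by
  unfold ent
  rcases lt_or_ge u M.length with hu | hu
  · have hr : M.getD u [] ∈ M := by
      rw [List.getD_eq_getElem _ _ hu]; exact List.getElem_mem hu
    rcases lt_or_ge v (M.getD u []).length with hv | hv
    · rw [List.getD_eq_getElem _ _ hv]
      exact (h.2 _ hr).2 _ (List.getElem_mem hv)
    · rw [List.getD_eq_default _ _ hv]; exact Nat.zero_le _
  · rw [List.getD_eq_default _ _ hu]; simp

theorem ok_mk {n B : ℕ} {f : ℕ → ℕ → ℕ} (h : ∀ u v, f u v ≤ B) : Ok n B (mk n f) := by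
  refine ⟨by simp [mk], fun r hr => ?_⟩
  simp only [mk, List.mem_map] at hr
  obtain ⟨u, -, rfl⟩ := hr
  refine ⟨by simp, fun x hx => ?_⟩
  simp only [List.mem_map] at hx
  obtain ⟨v, -, rfl⟩ := hx
  exact h u v

theorem ok_self (M : Mx) : Ok (esize M) (2 ^ esize M) M := by
  refine ⟨(length_lt_esize M).le, fun r hr => ⟨?_, fun x hx => ?_⟩⟩
  · exact ((length_lt_esize r).trans (esize_lt_of_mem hr)).le
  · exact (lt_two_pow_esize x).le.trans (Nat.pow_le_pow_right (by omega)
      ((esize_lt_of_mem hx).trans (esize_lt_of_mem hr)).le)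

theorem Ok.esize_le {n k : ℕ} {M : Mx} (h : Ok n (2 ^ k) M) :
    esize M ≤ n * (n * (6 * k + 8) + 2) + 1 := by
  have h1 := esize_list_le (l := M) (B := n * (6 * k + 8) + 1) fun r hr => by
    have h2 := esize_list_le (l := r) (B := 6 * k + 7) fun x hx =>
      esize_nat_le_of_le_two_pow ((h.2 r hr).2 x hx)
    exact h2.trans (Nat.add_le_add_right (Nat.mul_le_mul_right _ (h.2 r hr).1) _)
  exact h1.trans (Nat.add_le_add_right (Nat.mul_le_mul_right _ h.1) _)

variable {α : Type} [Enc α] {n u v τ : α → ℕ} {M : α → Mx}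

@[fun_prop] theorem entT (hM : PT M) (hu : PT u) (hv : PT v) : PT fun a => ent (M a) (u a) (v a) := by
  unfold ent; fun_prop

@[fun_prop] theorem mkT {f : α → ℕ → ℕ → ℕ} (hn : PT n) (hn' : PB n)
    (hf : PT fun p : α × ℕ × ℕ => f p.1 p.2.1 p.2.2) : PT fun a => mk (n a) (f a) := by
  unfold mk
  refine PT.map (by fun_prop) ?_
  refine PT.map (by fun_prop) ?_
  exact hf.comp (g := fun p : (α × ℕ) × ℕ => (p.1.1, p.1.2, p.2)) (by fun_prop)

@[fun_prop] theorem cutT {S : α → List ℕ} (hn : PT n) (hn' : PB n) (hM : PT M) (hS : PT S) :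
    PT fun a => cut (n a) (M a) (S a) := by
  unfold cut
  refine PT.sum_range_nat hn hn' ?_
  refine PT.sum_range_nat (by fun_prop) (by fun_prop) ?_
  fun_prop

@[fun_prop] theorem flpT (hn : PT n) (hn' : PB n) (hM : PT M) (hu : PT u) (hv : PT v) :
    PT fun a => flp (n a) (M a) (u a) (v a) := by
  unfold flp
  refine mkT hn hn' ?_
  fun_prop

@[fun_prop] theorem bfsStepT {L : α → List (ℕ × Mx)} (hn : PT n) (hn' : PB n) (hL : PT L) :
    PT fun a => bfsStep (n a) (L a) := by
  unfold bfsStep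
  fun_prop

/-- after `i` steps: length `≤ i + 1`, vertices `≤ max a n`, matrices `Ok N (B + i)`. -/
theorem ok_bfs {n N B a : ℕ} {R : Mx} (hR : Ok N B R) (hn : n ≤ N) (i : ℕ) :
    ((bfsStep n)^[i] [(a, R)]).length ≤ i + 1 ∧
      ∀ r ∈ (bfsStep n)^[i] [(a, R)], r.1 ≤ max a n ∧ Ok N (B + i) r.2 := by
  induction i with
  | zero => simpa using hR
  | succ i ih =>
    rw [Function.iterate_succ_apply']
    generalize (bfsStep n)^[i] [(a, R)] = L at ih
    obtain ⟨h1, h2⟩ := ih
    have h3 : ∀ r ∈ L, r.1 ≤ max a n ∧ Ok N (B + (i + 1)) r.2 := fun r hr =>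
      ⟨(h2 r hr).1, (h2 r hr).2.mono le_rfl (by omega)⟩
    unfold bfsStep
    cases ho : List.find? (fun t : (ℕ × Mx) × ℕ =>
      decide (t.2 ∉ L.map Prod.fst ∧ 0 < ent t.1.2 t.1.1 t.2))
      (L.flatMap fun r => (List.range n).map fun v => (r, v)) with
    | none => exact ⟨by simp only [Option.elim]; omega, h3⟩
    | some t =>
      have ht := List.mem_of_find?_eq_some ho
      simp only [List.mem_flatMap, List.mem_map, List.mem_range] at ht
      obtain ⟨r, hr, w, hw, rfl⟩ := ht
      simp only [Option.elim, List.length_cons]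
      refine ⟨by omega, fun r' hr' => ?_⟩
      rcases List.mem_cons.1 hr' with rfl | hr'
      · refine ⟨by simp only; omega, ?_⟩
        refine (ok_mk (B := B + (i + 1)) fun p q => ?_).mono hn le_rfl
        have := (h2 r hr).2.ent_le p q
        split_ifs <;> omega
      · exact h3 r' hr'

theorem PTa_pow (e : ℕ) {i m : ℕ} (h : i ≤ m) : 2 ^ e + i ≤ 2 ^ (e + m) := by
  have h1 : m < 2 ^ m := Nat.lt_two_pow_self
  have h2 : 0 < 2 ^ e := by positivity
  rw [pow_add]
  nlinarith

@[fun_prop] theorem bfsT (hn : PT n) (hn' : PB n) (hM : PT M) (hu : PT u) :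
    PT fun a => bfs (n a) (M a) (u a) := by
  unfold bfs
  refine PT.iterate (f := fun a => bfsStep (n a))
    (fun a => (n a + 1) * (esize (u a) + (6 * n a + 1) +
      ((esize (M a) + n a) * ((esize (M a) + n a) * (6 * (esize (M a) + n a) + 8) + 2) + 1) + 2) + 1)
    hn hn' (by fun_prop) (by fun_prop) (by fun_prop) fun a i hi => ?_
  obtain ⟨h1, h2⟩ := ok_bfs (n := n a) (a := u a)
    ((ok_self (M a)).mono (Nat.le_add_right _ (n a)) le_rfl) (Nat.le_add_left _ _) i
  refine (esize_list_le (B := esize (u a) + (6 * n a + 1) +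
      ((esize (M a) + n a) * ((esize (M a) + n a) * (6 * (esize (M a) + n a) + 8) + 2) + 1) + 1)
      fun r hr => ?_).trans (Nat.add_le_add_right (Nat.mul_le_mul_right _ (by omega)) _)
  obtain ⟨h3, h4⟩ := h2 r hr
  have h5 := (h4.mono le_rfl (PTa_pow (esize (M a)) hi)).esize_le
  have h6 : esize r.1 ≤ esize (u a) + (6 * n a + 1) := by
    rcases le_max_iff.1 h3 with h | h
    · exact (esize_nat_mono h).trans (Nat.le_add_right _ _)
    · exact ((esize_nat_mono h).trans (esize_nat_le_self _)).trans (Nat.le_add_left _ _)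
  rw [esize_prod]
  omega

@[fun_prop] theorem augT (hn : PT n) (hn' : PB n) (hu : PT u) (hv : PT v) (hM : PT M) :
    PT fun a => aug (n a) (u a) (v a) (M a) := by
  unfold aug
  fun_prop

theorem PTa_ok_aug {n N B a b : ℕ} {R : Mx} (hR : Ok N B R) (hn : n ≤ N) (i : ℕ) :
    Ok N (B + i * n) ((aug n a b)^[i] R) := by
  induction i with
  | zero => simpa using hR
  | succ i ih =>
    rw [Function.iterate_succ_apply']
    generalize (aug n a b)^[i] R = X at ih
    unfold aug
    cases ho : List.find? (fun r : ℕ × Mx => decide (r.1 = b)) (bfs n X a) with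
    | none => exact ih.mono le_rfl (by nlinarith)
    | some t =>
      have ht := List.mem_of_find?_eq_some ho
      have := ((ok_bfs (a := a) ih hn n).2 t ht).2
      exact this.mono le_rfl (by nlinarith)

/-- `PT.iterate`: after `i` rounds the matrix is `Ok N (B + i n)`, and `2 ^ e + i n ≤ 2 ^ (e + τ n)`. -/
@[fun_prop] theorem mincutT (hn : PT n) (hn' : PB n) (hτ : PT τ) (hτ' : PB τ) (hM : PT M) (hu : PT u)
    (hv : PT v) : PT fun a => mincut (n a) (τ a) (M a) (u a) (v a) := by
  have h : PT fun a => (aug (n a) (u a) (v a))^[τ a] (M a) := by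
    refine PT.iterate (f := fun a => aug (n a) (u a) (v a))
      (fun a => (esize (M a) + n a) * ((esize (M a) + n a) * (6 * (esize (M a) + τ a * n a) + 8) + 2) + 1)
      hτ hτ' hM (by fun_prop) (by fun_prop) fun a i hi => ?_
    have h1 := PTa_ok_aug (n := n a) (a := u a) (b := v a)
      ((ok_self (M a)).mono (Nat.le_add_right _ (n a)) le_rfl) (Nat.le_add_left _ _) i
    exact (h1.mono le_rfl (PTa_pow (esize (M a)) (Nat.mul_le_mul_right _ hi))).esize_le
  unfold mincut
  fun_prop

@[fun_prop] theorem oddCutT (hn : PT n) (hn' : PB n) (hτ : PT τ) (hτ' : PB τ) (hM : PT M) :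
    PT fun a => oddCut (n a) (τ a) (M a) := by
  unfold oddCut
  fun_prop

end Crest.Agent.R304C
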