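import Crest.Agent.R304C.PM

/-!
# Row 304 C: the Gibbs marginals
-/

set_option autoImplicit false

namespace Crest.Agent.R304C

open Finset Crest.Matchings

theorem UB_lt {n : ℕ} {q : Fin n × Fin n} (hq : q ∈ ltPairs n) : (q.1 : ℕ) < q.2 := by
  simpa [ltPairs] using hq

/-- `p M = 2 ^ ℓ(M) / Z`, `x u v = ∑_M p M [∃ q ∈ M, {q.1, q.2} = {u, v}]` (for `q ∈ ltPairs n`:
`x q.1 q.2 = ∑_{M ∋ q} p M`; use `deg_pairs`, `cutF_pairs`, `exists_cross`).
With `Y M = ∏_{q ∈ M} y q`: `∑_q x q (ℓ q log 2 - log y q) = ∑_M p M (log Z + log (p M / Y M))`;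
`∑_M p M log (Y M / p M) ≤ log (∑_M Y M)` (Jensen, or `log t ≤ t - 1` for `t = Y M / (p M * ∑ Y)`), and
`∑_M Y M ≤ ∏_q (1 + y q) ≤ exp (∑_q y q)` (`Finset.prod_one_add`).  Finish with `sum_pairs`. -/
theorem gibbs_ub {n : ℕ} {ℓ : ℕ → ℕ → ℕ} (hℓ : Sym n ℓ) (hZ : 0 < Zf n ℓ) :
    ∃ x, InP n x ∧ ∀ y : ℕ → ℕ → ℝ, Sym n y → (∀ u < n, ∀ v < n, 0 < y u v) →
      2 * Real.log (Zf n ℓ) - ∑ u ∈ range n, ∑ v ∈ range n, y u v ≤
        ∑ u ∈ range n, ∑ v ∈ range n, x u v * (ℓ u v * Real.log 2 - Real.log (y u v)) := by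
  classical
  have hZ' : (0 : ℝ) < Zf n ℓ := by exact_mod_cast hZ
  set W : Finset (Fin n × Fin n) → ℝ := fun M => ∏ q ∈ M, (2 : ℝ) ^ ℓ q.1 q.2 with hW
  have hWpos : ∀ M, 0 < W M := fun M => prod_pos fun q _ => by positivity
  have hWZ : ∑ M ∈ PMs n, W M = Zf n ℓ := by simp [hW, Zf]
  set p : Finset (Fin n × Fin n) → ℝ := fun M => W M / Zf n ℓ with hp
  have hppos : ∀ M, 0 < p M := fun M => div_pos (hWpos M) hZ'
  have hp1 : ∑ M ∈ PMs n, p M = 1 := by
    simp only [hp]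
    rw [← sum_div, hWZ, div_self hZ'.ne']
  set x : ℕ → ℕ → ℝ := fun u v => ∑ M ∈ PMs n,
    if ∃ q ∈ M, ((q.1 : ℕ) = u ∧ (q.2 : ℕ) = v) ∨ ((q.1 : ℕ) = v ∧ (q.2 : ℕ) = u) then p M else 0
    with hx
  have hsym : Sym n x := fun u _ v _ => by
    simp only [hx, or_comm]
  have hdiag : ∀ u < n, x u u = 0 := fun u _ => by
    refine sum_eq_zero fun M hM => if_neg ?_
    rintro ⟨q, hq, h⟩
    have h1 : (q.1 : ℕ) < q.2 := (mem_PMs.1 hM).1 q hq
    omega
  have hxq : ∀ q ∈ ltPairs n, x q.1 q.2 = ∑ M ∈ PMs n, if q ∈ M then p M else 0 := by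
    intro q hq
    have hq' : (q.1 : ℕ) < q.2 := UB_lt hq
    refine sum_congr rfl fun M hM => if_congr ⟨?_, fun h => ⟨q, h, Or.inl ⟨rfl, rfl⟩⟩⟩ rfl rfl
    rintro ⟨r, hr, h | h⟩
    · rwa [← show r = q from Prod.ext (Fin.ext h.1) (Fin.ext h.2)]
    · have h1 : (r.1 : ℕ) < r.2 := (mem_PMs.1 hM).1 r hr
      omega
  have hsub : ∀ M ∈ PMs n, M ⊆ ltPairs n := fun M hM => mem_powerset.1 (mem_filter.1 hM).1
  have key : ∀ (s : Finset (Fin n × Fin n)) (g : Fin n × Fin n → ℝ), s ⊆ ltPairs n →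
      ∑ q ∈ s, x q.1 q.2 * g q = ∑ M ∈ PMs n, p M * ∑ q ∈ s.filter (· ∈ M), g q := by
    intro s g hs
    rw [sum_congr rfl fun q hq => by rw [hxq q (hs hq), sum_mul], sum_comm]
    refine sum_congr rfl fun M _ => ?_
    rw [sum_filter, mul_sum]
    refine sum_congr rfl fun q _ => ?_
    split_ifs <;> simp
  have key1 : ∀ P : Fin n × Fin n → Prop, ∀ _ : DecidablePred P,
      ∑ q ∈ (ltPairs n).filter P, x q.1 q.2 = ∑ M ∈ PMs n, p M * (M.filter P).card := by
    intro P _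
    have h := key ((ltPairs n).filter P) (fun _ => 1) (filter_subset _ _)
    simp only [mul_one] at h
    rw [h]
    refine sum_congr rfl fun M hM => ?_
    rw [filter_comm, filter_mem_eq_inter, inter_eq_right.2 (hsub M hM)]
    simp
  refine ⟨x, ⟨fun u _ v _ => sum_nonneg fun M _ => ?_, hsym, hdiag, fun u hu => ?_,
    fun A hA ho => ?_⟩, fun y hy hy0 => ?_⟩
  · split_ifs
    · exact (hppos M).le
    · exact le_rfl
  · rw [show u = ((⟨u, hu⟩ : Fin n) : ℕ) from rfl, deg_pairs x hsym _ (hdiag u hu), key1, ← hp1]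
    refine sum_congr rfl fun M hM => ?_
    rw [(mem_PMs.1 hM).2, Nat.cast_one, mul_one]
  · rw [cutF_pairs x hsym, key1, ← hp1]
    refine sum_le_sum fun M hM => le_mul_of_one_le_right (hppos M).le ?_
    obtain ⟨q, hq, hc⟩ := exists_cross hM hA ho
    exact_mod_cast card_pos.2 ⟨q, mem_filter.2 ⟨hq, hc⟩⟩
  · have hs2 : Sym n fun u v => x u v * (ℓ u v * Real.log 2 - Real.log (y u v)) :=
      fun u hu v hv => by simp only [hsym u hu v hv, hℓ u hu v hv, hy u hu v hv]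
    have hd : ∑ u ∈ range n, x u u * (ℓ u u * Real.log 2 - Real.log (y u u)) = 0 :=
      sum_eq_zero fun u hu => by rw [hdiag u (mem_range.1 hu), zero_mul]
    have hyd : 0 ≤ ∑ u ∈ range n, y u u :=
      sum_nonneg fun u hu => (hy0 u (mem_range.1 hu) u (mem_range.1 hu)).le
    rw [sum_pairs _ hs2, sum_pairs y hy, hd,
      key _ (fun q => ℓ q.1 q.2 * Real.log 2 - Real.log (y q.1 q.2)) subset_rfl]
    set Y : Finset (Fin n × Fin n) → ℝ := fun M => ∏ q ∈ M, y q.1 q.2 with hY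
    have hyq : ∀ q : Fin n × Fin n, 0 < y q.1 q.2 := fun q => hy0 _ q.1.2 _ q.2.2
    have hYpos : ∀ M, 0 < Y M := fun M => prod_pos fun q _ => hyq q
    set E : ℝ := ∑ q ∈ ltPairs n, y q.1 q.2 with hE
    have hYE : ∑ M ∈ PMs n, Y M ≤ Real.exp E := by
      calc ∑ M ∈ PMs n, Y M ≤ ∑ M ∈ (ltPairs n).powerset, Y M :=
            sum_le_sum_of_subset_of_nonneg (filter_subset _ _) fun M _ _ => (hYpos M).le
        _ = ∏ q ∈ ltPairs n, (1 + y q.1 q.2) := (prod_one_add _).symm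
        _ ≤ ∏ q ∈ ltPairs n, Real.exp (y q.1 q.2) :=
            prod_le_prod (fun q _ => by linarith [hyq q]) fun q _ => by
              linarith [Real.add_one_le_exp (y q.1 q.2)]
        _ = Real.exp E := (Real.exp_sum _ _).symm
    have hterm : ∀ M ∈ PMs n, p M * (Real.log (Zf n ℓ) - E + 1) - Y M / Real.exp E ≤
        p M * ∑ q ∈ (ltPairs n).filter (· ∈ M), (ℓ q.1 q.2 * Real.log 2 - Real.log (y q.1 q.2)) := by
      intro M hM
      rw [filter_mem_eq_inter, inter_eq_right.2 (hsub M hM), sum_sub_distrib]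
      have h1 : ∑ q ∈ M, (ℓ q.1 q.2 : ℝ) * Real.log 2 = Real.log (W M) := by
        rw [hW, Real.log_prod fun q _ => by positivity]
        simp only [Real.log_pow]
      have h2 : ∑ q ∈ M, Real.log (y q.1 q.2) = Real.log (Y M) :=
        (Real.log_prod fun q _ => (hyq q).ne').symm
      have h3 : Real.log (p M) = Real.log (W M) - Real.log (Zf n ℓ) :=
        Real.log_div (hWpos M).ne' hZ'.ne'
      have he := Real.exp_pos E
      have h4 := Real.log_le_sub_one_of_pos (div_pos (hYpos M) (mul_pos (hppos M) he))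
      rw [Real.log_div (hYpos M).ne' (mul_pos (hppos M) he).ne', Real.log_mul (hppos M).ne' he.ne',
        Real.log_exp, h3] at h4
      have h5 : p M * (Y M / (p M * Real.exp E)) = Y M / Real.exp E := by
        have := (hppos M).ne'
        field_simp
      have h6 := mul_le_mul_of_nonneg_left h4 (hppos M).le
      rw [h1, h2]
      nlinarith
    have h7 := sum_le_sum hterm
    rw [sum_sub_distrib, ← sum_mul, hp1, ← sum_div] at h7
    have h8 : (∑ M ∈ PMs n, Y M) / Real.exp E ≤ 1 := (div_le_one (Real.exp_pos E)).2 hYE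
    linarith

end Crest.Agent.R304C
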